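import Vale.Agent.P004K.Hg.Ft
import Vale.Agent.P004K.St2

/-! # P004K: the calculus of `At` and `st`, row HG1 -/

set_option autoImplicit false

open UpperHalfPlane CongruenceSubgroup NumberField
open scoped MatrixGroups

noncomputable section

namespace Vale.Agent.P004K

open Vale.Agent.P022 P027H P027M.M
open P004Z (Fm evq)

namespace Hg

variable {σ : ℂ ≃+* ℂ} {τ τ' : ℍ} {ψ : ℂ → ℂ} {Λ Λ' Λ₁ Λ₁' L : Submodule ℤ ℂ} {x y z : ℂ} {N c : ℕ}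

/-- `Λ + ℤ x` -/
def ov (Λ : Submodule ℤ ℂ) (x : ℂ) : Submodule ℤ ℂ := Λ ⊔ Submodule.span ℤ {x}

theorem mem_ov : z ∈ ov Λ x ↔ ∃ a : ℤ, z - a * x ∈ Λ := by
  rw [ov, Submodule.mem_sup]
  constructor
  · rintro ⟨w, hw, v, hv, rfl⟩
    obtain ⟨a, rfl⟩ := Submodule.mem_span_singleton.1 hv
    exact ⟨a, by simpa using hw⟩
  · rintro ⟨a, h⟩
    exact ⟨_, h, a * x, int_mul_mem a (Submodule.mem_span_singleton_self x), by ring⟩

theorem le_ov : Λ ≤ ov Λ x := le_sup_left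

theorem self_ov : x ∈ ov Λ x := mem_ov.2 ⟨1, by simp⟩

theorem ov_le (h : Λ ≤ L) (k : x ∈ L) : ov Λ x ≤ L :=
  sup_le h ((Submodule.span_singleton_le_iff_mem _ _).2 k)

theorem at_iff : At N Λ Λ₁ τ ↔ ∃ ω, Hom ω (lat τ) Λ ∧ Λ₁ = ov Λ (ω / N) :=
  exists_congr fun _ => and_congr_right fun _ => by simp only [SetLike.ext_iff, mem_ov]

theorem bez {a b : ℤ} (h : IsCoprime a b) (ha : (a : ℂ) * z ∈ Λ) (hb : (b : ℂ) * z ∈ Λ) : z ∈ Λ := by
  obtain ⟨u, v, e⟩ := h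
  have : (u : ℂ) * a + v * b = 1 := by exact_mod_cast e
  exact mem_of_eq (add_mem (int_mul_mem u ha) (int_mul_mem v hb)) (by linear_combination -z * this)

theorem one_lat : (1 : ℂ) ∈ lat τ := mem_of_eq (lat_mem 0 1) (by simp)

theorem self_lat : (τ : ℂ) ∈ lat τ := mem_of_eq (lat_mem 1 0) (by simp)

theorem cop_cj (hN : 0 < N) (t : Tp σ (lat τ) (lat τ') ψ) {a : ℤ} (h : ψ (1 / N) - a / N ∈ lat τ') :
    IsCoprime a N := P004Z.Hd.cop_of fun p hp ⟨u, e1⟩ ⟨v, e2⟩ => by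
  have h0 : (N : ℂ) ≠ 0 := by exact_mod_cast hN.ne'
  have e1' : (a : ℂ) = p * u := by exact_mod_cast e1
  have e2' : (N : ℂ) = p * v := by exact_mod_cast e2
  have k := (t.mem (v * (1 / N))).1 (mem_of_eq (add_mem (add_mem (t.int v (1 / N))
    (int_mul_mem v h)) (lat_mem 0 u)) (by
      generalize ψ (v * (1 / N)) = A
      generalize ψ (1 / N) = A'
      field_simp
      push_cast
      linear_combination v * e1' - u * e2'))
  have := ((div_mem (τ := τ) hp.pos (a := 0) (b := 1)).1 (mem_of_eq k (by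
    rw [e2'] at h0 ⊢
    have := right_ne_zero_of_mul h0
    have := left_ne_zero_of_mul h0
    push_cast
    field_simp
    ring))).2
  exact hp.one_lt.ne' (by exact_mod_cast Int.eq_one_of_dvd_one (by omega) this)

theorem at_cj (hN : 0 < N) (h : At N Λ Λ₁ τ) (t : Tp σ Λ Λ' ψ) (le : Λ' ≤ Λ₁')
    (e : ∀ z, ψ z ∈ Λ₁' ↔ z ∈ Λ₁) : At N Λ' Λ₁' τ' ↔ Cj0 σ N τ τ' := by
  obtain ⟨ω, hω, h1⟩ := h
  have h0 : (N : ℂ) ≠ 0 := by exact_mod_cast hN.ne'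
  constructor
  · rintro ⟨ω', hω', h1'⟩
    obtain ⟨a, ha⟩ := (h1' _).1 ((e (ω / N)).2 ((h1 _).2 ⟨1, by simp⟩))
    refine ⟨_, (t.homL hω).homR hω'.symm, a, (hω'.2 _).2 (mem_of_eq ha ?_)⟩
    have := hω'.1
    rw [mul_one_div]
    field_simp
  · rintro ⟨χ, t', a, ha⟩
    obtain ⟨c, hc, k⟩ := t'.uniq (t.homL hω)
    obtain ⟨u, v, uv⟩ := cop_cj hN t' ha
    have uv' : (u : ℂ) * a + v * N = 1 := by exact_mod_cast uv
    have k1 : ψ (ω / N) - a * (c / N) ∈ Λ' := mem_of_eq (add_mem (k (1 / N)) ((hc.2 _).1 ha))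
      (by rw [mul_one_div]; ring)
    refine ⟨c, hc, fun z' => ?_⟩
    obtain ⟨z, hz⟩ := t.surj z'
    have k2 : ∀ b : ℤ, z - b * (ω / N) ∈ Λ ↔ z' - b * a * (c / N) ∈ Λ' := fun b => by
      have := add_mem (t.int b (ω / N)) (int_mul_mem b k1)
      rw [← t.sub_iff]
      exact ⟨fun p => mem_of_eq (sub_mem (add_mem p this) hz) (by ring),
        fun p => mem_of_eq (add_mem (sub_mem p this) hz) (by ring)⟩
    rw [← (Λ₁'.add_mem_iff_right (le hz) (y := z')), sub_add_cancel, e, h1]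
    refine ⟨fun ⟨b, p⟩ => ⟨b * a, by simpa using (k2 b).1 p⟩, fun ⟨b, p⟩ => ⟨b * u, (k2 _).2
      (mem_of_eq (add_mem p (int_mul_mem (b * v) ((hc.2 1).1 one_lat))) ?_)⟩⟩
    push_cast
    field_simp
    linear_combination -b * c * uv'

theorem tp_of_j (hJ : JH) (h : IsLat Λ) (h' : IsLat Λ') (e : jL Λ' = σ (jL Λ)) :
    ∃ ψ, Tp σ Λ Λ' ψ := by
  obtain ⟨M, ψ, t⟩ := ex_tp h σ
  obtain ⟨μ, k⟩ := (hJ M Λ' t.lat' h').1 (t.jL.trans e.symm)
  exact ⟨_, t.homR k⟩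

theorem tp_id (h : IsLat Λ) : Tp 1 Λ Λ fun z => 1 * z := tp_hom (Hom.refl Λ) h

theorem At.lat (h : At N Λ Λ₁ τ) : IsLat Λ := h.choose_spec.1.isLat (isLat τ)

theorem At.j (h : At N Λ Λ₁ τ) : jL Λ = jL (P027M.M.lat τ) := jL_hom h.choose_spec.1 (isLat τ)

theorem at_uq (hC : CJ0) (hN : 0 < N) (h : At N Λ Λ₁ τ) :
    At N Λ Λ₁ τ' ↔ ∃ γ ∈ Gamma0 N, γ • τ = τ' := by
  obtain ⟨-, -, c2, -, -, c5, -⟩ := hC 1 N hN
  obtain ⟨ω, -, e⟩ := at_iff.1 h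
  rw [at_cj hN h (tp_id (At.lat h)) (e ▸ le_ov) fun z => by rw [one_mul], c2 τ τ τ' (c5 τ)]

theorem ov_lat {m : ℕ} (h : IsLat Λ) (hm : 0 < m) (k : (m : ℂ) * x ∈ Λ) : IsLat (ov Λ x) :=
  h.of_between le_ov hm fun z hz => by
    obtain ⟨a, e⟩ := mem_ov.1 hz
    exact mem_of_eq (add_mem (nat_mul_mem m e) (int_mul_mem a k)) (by ring)

variable {O : Type} [CommRing O] {J : O →+* ℂ} {I I' : Ideal O} {η : O}

theorem mem_st : z ∈ st J I Λ ↔ ∀ a ∈ I, (∀ w ∈ Λ, J a * w ∈ Λ) → J a * z ∈ Λ := Iff.rfl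

theorem le_st : Λ ≤ st J I Λ := fun z hz _ _ h => h z hz

theorem tp_end (t : Tp σ Λ Λ' ψ) (hσ : ∀ a, σ (J a) = J a) (a : O) :
    (∀ w ∈ Λ', J a * w ∈ Λ') ↔ ∀ w ∈ Λ, J a * w ∈ Λ := by rw [← t.cm_iff, hσ]

theorem tp_mul (t : Tp σ Λ Λ' ψ) (hσ : ∀ a, σ (J a) = J a) {a : O} (h : ∀ w ∈ Λ, J a * w ∈ Λ)
    (z : ℂ) : ψ (J a * z) - J a * ψ z ∈ Λ' := by
  have := (t.cm h).2 z
  rwa [hσ] at this

theorem tp_st (t : Tp σ Λ Λ' ψ) (hσ : ∀ a, σ (J a) = J a) (z : ℂ) :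
    ψ z ∈ st J I Λ' ↔ z ∈ st J I Λ := forall₂_congr fun a _ => by
  rw [tp_end t hσ]
  refine imp_congr_right fun h => ?_
  rw [← t.mem, ← Λ'.add_mem_iff_right (tp_mul t hσ h z), sub_add_cancel]

theorem st_cj (hN : 0 < N) (h : At N Λ (st J I Λ) τ) (t : Tp σ Λ Λ' ψ)
    (hσ : ∀ a, σ (J a) = J a) : At N Λ' (st J I Λ') τ' ↔ Cj0 σ N τ τ' :=
  at_cj hN h t le_st (tp_st t hσ)

theorem st_end {a : O} (h : ∀ w ∈ Λ, J a * w ∈ Λ) : ∀ w ∈ st J I Λ, J a * w ∈ st J I Λ :=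
  fun w hw b hb k => by
    rw [mul_left_comm]
    exact h _ (hw b hb k)

theorem st_int {m : ℤ} (h : (m : O) ∈ I) (hz : z ∈ st J I Λ) : (m : ℂ) * z ∈ Λ := by
  have := hz m h
  rw [map_intCast] at this
  exact this fun w hw => int_mul_mem m hw

theorem st_mul {m m' : ℤ} (k : ∀ a : O, ∀ z ∈ Λ, J (c * a) * z ∈ Λ) (h : (m : O) ∈ I)
    (h' : (m' : O) ∈ I') (e : IsCoprime m c) (e' : IsCoprime m' c) :
    st J I (st J I' Λ) = st J (I * I') Λ := by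
  refine le_antisymm (fun z hz x hx p => ?_) fun z hz a ha p b hb q => ?_
  · refine bez ((e'.mul_left e).pow_right (n := 2)) (mem_of_eq (p _ (st_int h' (st_int h hz)))
      (by push_cast; ring)) ?_
    refine Submodule.mul_induction_on hx (fun a ha b hb => mem_of_eq (hz _ (I.mul_mem_left c ha)
      (st_end (k a)) _ (I'.mul_mem_left c hb) (k b)) ?_) fun a b ha hb => mem_of_eq
        (add_mem ha hb) (by rw [map_add]; ring)
    simp only [map_mul, map_natCast]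
    push_cast
    ring
  · rw [← mul_assoc, ← map_mul, mul_comm b]
    refine hz _ (Ideal.mul_mem_mul ha hb) fun w hw => ?_
    rw [mul_comm a, map_mul, mul_assoc]
    exact p w (le_st hw) b hb q

theorem st_ov {m n : ℤ} (k : (m : ℂ) * x ∈ Λ) (h : (n : O) ∈ I) (e : IsCoprime m n)
    (hs : st J I Λ = ov Λ y) : st J I (ov Λ x) = ov (ov Λ x) y := by
  have k1 : ∀ w ∈ ov Λ x, (m : ℂ) * w ∈ Λ := fun w hw => by
    obtain ⟨a, e⟩ := mem_ov.1 hw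
    exact mem_of_eq (add_mem (int_mul_mem m e) (int_mul_mem a k)) (by ring)
  have k2 : ∀ a : O, ∀ w, J (m * a) * w = m * (J a * w) := fun a w => by
    rw [map_mul, map_intCast, mul_assoc]
  have hy : y ∈ st J I Λ := hs ▸ self_ov
  refine le_antisymm (fun z hz => bez (e.pow_left (m := 2)) ?_ (le_ov (st_int h hz)))
    (ov_le le_st fun a ha p => bez e ?_ ?_)
  · refine ov_le (le_ov.trans le_ov) self_ov (hs.le fun a ha p => mem_of_eq (k1 _ (hz _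
      (I.mul_mem_left m ha) fun w hw => le_ov ?_)) (by rw [k2]; push_cast; ring))
    rw [k2, mul_left_comm]
    exact p _ (k1 w hw)
  · rw [← k2]
    refine le_ov (hy _ (I.mul_mem_left m ha) fun w hw => ?_)
    rw [k2]
    exact k1 _ (p w (le_ov hw))
  · rw [mul_left_comm]
    exact p _ (le_ov (st_int h hy))

theorem mem_Oc : z ∈ Oc J c ↔ ∃ (k : ℤ) (a : O), z = k + c * J a := Iff.rfl

theorem int_Oc (k : ℤ) : (k : ℂ) ∈ Oc J c := ⟨k, 0, by simp⟩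

theorem one_Oc : (1 : ℂ) ∈ Oc J c := ⟨1, 0, by simp⟩

theorem c_Oc (a : O) : c * J a ∈ Oc J c := ⟨0, a, by simp⟩

theorem mul_Oc (h : x ∈ Oc J c) (k : y ∈ Oc J c) : x * y ∈ Oc J c := by
  obtain ⟨u, a, rfl⟩ := h
  obtain ⟨v, b, rfl⟩ := k
  exact ⟨u * v, u * b + v * a + c * a * b, by simp; ring⟩

theorem end_Oc : (∀ w ∈ Oc J c, x * w ∈ Oc J c) ↔ x ∈ Oc J c :=
  ⟨fun h => by simpa using h 1 one_Oc, fun h _ => mul_Oc h⟩

theorem kl_Oc (a : O) : ∀ z ∈ Oc J c, J (c * a) * z ∈ Oc J c :=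
  end_Oc.2 (by rw [map_mul, map_natCast]; exact c_Oc a)

/-- `1, η` is an oriented basis -/
structure Bs (J : O →+* ℂ) (η : O) : Prop where
  bas : ∀ a : O, ∃ u v : ℤ, a = u + v * η
  im : 0 < (J η).im

theorem Bs.sub (B : Bs J η) (β : ℤ) : Bs J (η - β) :=
  ⟨fun a => let ⟨u, v, e⟩ := B.bas a; ⟨u + v * β, v, by rw [e]; push_cast; ring⟩,
    by simpa using B.im⟩

theorem Bs.ex (B : Bs J η) (h : Cn N I) : ∃ η ∈ I, Bs J η :=
  let ⟨β, e⟩ := h.2 η; ⟨_, e, B.sub β⟩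

theorem Bs.sq (B : Bs J η) : ∃ t n : ℤ, η ^ 2 = t * η - n :=
  let ⟨u, v, e⟩ := B.bas (η ^ 2); ⟨v, -u, by rw [e]; push_cast; ring⟩

/-- the point `c η` -/
def Bs.pt (B : Bs J η) (hc : 0 < c) : ℍ :=
  ⟨c * J η, by simpa using mul_pos (Nat.cast_pos.2 hc) B.im⟩

theorem Bs.coe (B : Bs J η) (hc : 0 < c) : (B.pt hc : ℂ) = c * J η := rfl

theorem Bs.Oc_eq (B : Bs J η) (hc : 0 < c) : Oc J c = lat (B.pt hc) := by
  ext z
  rw [mem_lat, B.coe]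
  constructor
  · rintro ⟨k, a, rfl⟩
    obtain ⟨u, v, rfl⟩ := B.bas a
    exact ⟨v, k + c * u, by simp; ring⟩
  · rintro ⟨m, n, rfl⟩
    exact ⟨n, m * η, by simp; ring⟩

theorem Bs.lat (B : Bs J η) (hc : 0 < c) : IsLat (Oc J c) := B.Oc_eq hc ▸ isLat _

theorem Bs.ind (B : Bs J η) {a b c d : ℤ} (h : (a : ℂ) * J η + b = c * J η + d) : a = c ∧ b = d :=
  Hg.ind (τ := B.pt one_pos) (by simpa [B.coe] using h)

theorem Bs.inj (B : Bs J η) : Function.Injective J := fun a b h => by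
  obtain ⟨u, v, rfl⟩ := B.bas a
  obtain ⟨u', v', rfl⟩ := B.bas b
  have := B.ind (a := v) (b := u) (c := v') (d := u') (by simpa [add_comm] using h)
  rw [this.1, this.2]

theorem Bs.st_iff (B : Bs J η) (h : Cn N I) (hη : η ∈ I)
    (E : ∀ a, (∀ w ∈ Λ, J a * w ∈ Λ) ↔ J a ∈ Oc J c) :
    z ∈ st J I Λ ↔ N * z ∈ Λ ∧ c * J η * z ∈ Λ := by
  constructor
  · refine fun hz => ⟨by simpa using st_int ((h.1 N).2 dvd_rfl) hz, ?_⟩
    have := hz _ (I.mul_mem_left c hη) ((E _).2 (by simpa using c_Oc η))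
    simpa using this
  · rintro ⟨h1, h2⟩ a ha p
    obtain ⟨k, b, e⟩ := (E a).1 p
    obtain ⟨u, v, rfl⟩ := B.bas b
    have e' : a = (k + c * u : ℤ) + v * (c * η) := B.inj (by rw [e]; simp; ring)
    obtain ⟨m, hm⟩ := (h.1 (k + c * u)).1 (by
      simpa [e', mul_assoc] using I.sub_mem ha (I.mul_mem_left (v * c) hη))
    rw [e', hm]
    exact mem_of_eq (add_mem (int_mul_mem m h1) (int_mul_mem v h2)) (by simp; ring)

variable {t n : ℤ}

theorem Bs.hom (B : Bs J η) (hc : 0 < c) (t : ℤ) : ∃ τ : ℍ, τ * (c * (t - J η) : ℂ) = 1 ∧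
    Hom (c * (t - J η)) (P027M.M.lat τ) (Oc J c) := by
  have h1 : (c * (t - J η) : ℂ).im < 0 := by simpa using mul_pos (Nat.cast_pos.2 hc) B.im
  have h0 : (c * (t - J η) : ℂ) ≠ 0 := fun e => by simp [e] at h1
  refine ⟨⟨(c * (t - J η))⁻¹, ?_⟩, inv_mul_cancel₀ h0, h0, fun z => ?_⟩
  · rw [Complex.inv_im]
    exact div_pos (neg_pos.2 h1) (Complex.normSq_pos.2 h0)
  · rw [B.Oc_eq hc, mem_lat, mem_lat, B.coe]
    have := inv_mul_cancel₀ h0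
    refine ⟨fun ⟨u, v, e⟩ => ⟨-v, u + v * c * t, ?_⟩, fun ⟨u, v, e⟩ => ⟨v + u * c * t, -u,
      mul_left_cancel₀ h0 ?_⟩⟩ <;> rw [← e] <;> push_cast
    · linear_combination (-u : ℂ) * this
    · linear_combination (v + u * c * t : ℂ) * this

theorem Bs.st_Oc (B : Bs J η) (hc : 0 < c) (hN : 0 < N) (e : η ^ 2 = t * η - n) (h : Cn N I)
    (hη : η ∈ I) : st J I (Oc J c) = ov (Oc J c) (c * (t - J η) / N) := by
  have h0 : (N : ℂ) ≠ 0 := by exact_mod_cast hN.ne'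
  obtain ⟨m, rfl⟩ := (h.1 n).1 (by
    rw [show (n : O) = (t - η) * η by linear_combination e]
    exact I.mul_mem_left _ hη)
  have e' : J η ^ 2 = t * J η - N * m := by simpa using congrArg J e
  ext z
  rw [B.st_iff h hη fun _ => end_Oc, mem_ov]
  constructor
  · rintro ⟨h1, h2⟩
    rw [B.Oc_eq hc] at h1 h2
    obtain ⟨v, u, k⟩ := mem_lat.1 h1
    obtain ⟨s, hs⟩ := ((div_mem hN (a := u + v * c * t) (b := 0)).1 (mem_of_eq
      (add_mem h2 (lat_mem 0 (v * c ^ 2 * m))) (by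
        rw [B.coe] at k ⊢
        push_cast
        field_simp
        linear_combination (c * J η) * k - v * c ^ 2 * e'))).1
    refine ⟨-v, mem_of_eq (int_Oc s) ?_⟩
    have : (u : ℂ) + v * c * t = N * s := by exact_mod_cast hs
    rw [B.coe] at k
    push_cast
    field_simp
    linear_combination this - k
  · rintro ⟨a, k⟩
    refine ⟨mem_of_eq (add_mem (nat_mul_mem N k) (c_Oc (a * (t - η)))) ?_,
      mem_of_eq (add_mem (mul_Oc (c_Oc η) k) (int_Oc (a * c ^ 2 * m))) ?_⟩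
    · simp only [map_mul, map_sub, map_intCast]
      field_simp
      ring
    · push_cast
      field_simp
      linear_combination (-a * c ^ 2 : ℂ) * e'

theorem Bs.hp (B : Bs J η) (hc : 0 < c) (hN : 0 < N) (e : η ^ 2 = t * η - n) (h : Cn N I)
    (hη : η ∈ I) : ∃ τ : ℍ, τ * (c * (t - J η) : ℂ) = 1 ∧ Hp J N I c τ :=
  (B.hom hc t).imp fun _ k => ⟨k.1, at_iff.2 ⟨_, k.2, B.st_Oc hc hN e h hη⟩⟩

/-- change of level -/
theorem ov_mul {M : ℕ} (hM : 0 < M) (h : ov Λ (x / (N * M : ℕ)) = ov Λ (y / (N * M : ℕ))) :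
    ov Λ (x / N) = ov Λ (y / N) := by
  have h0 : (M : ℂ) ≠ 0 := by exact_mod_cast hM.ne'
  have : ∀ {x y : ℂ}, ov Λ (x / (N * M : ℕ)) = ov Λ (y / (N * M : ℕ)) → x / N ∈ ov Λ (y / N) :=
    fun {x y} h => by
      obtain ⟨a, e⟩ := mem_ov.1 (h.le self_ov)
      refine mem_ov.2 ⟨a, mem_of_eq (nat_mul_mem M e) ?_⟩
      push_cast
      field_simp
  exact le_antisymm (ov_le le_ov (this h)) (ov_le le_ov (this h.symm))

theorem hom_ov {ω : ℂ} {M : ℕ} (hM : 0 < M) (h : Hom ω (lat τ) Λ) (e : (τ' : ℂ) = M * τ) :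
    Hom (ω / M) (lat τ') (ov Λ (ω / M)) := by
  have h0 : (M : ℂ) ≠ 0 := by exact_mod_cast hM.ne'
  refine ⟨div_ne_zero h.1 h0, fun z => ?_⟩
  rw [mem_ov, mem_lat, e]
  constructor
  · rintro ⟨u, v, rfl⟩
    exact ⟨v, mem_of_eq ((h.2 _).1 (lat_mem u 0)) (by push_cast; field_simp; ring)⟩
  · rintro ⟨a, k⟩
    obtain ⟨u, v, p⟩ := mem_lat.1 ((h.2 ((z - a) / M)).2 (mem_of_eq k (by ring)))
    refine ⟨u, a + M * v, ?_⟩
    rw [eq_div_iff h0] at p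
    push_cast
    linear_combination p

theorem form_of (B : Bs J η) (hc : 0 < c) {ω : ℂ} (h : Hom ω (lat τ) (Oc J c)) :
    ∃ l : Fm, l ≠ 0 ∧ evq l τ = 0 := by
  have k : ∀ z ∈ lat τ, c * J η * z ∈ lat τ := fun z hz => (h.2 _).2 (mem_of_eq
    (mul_Oc (c_Oc η) ((h.2 z).1 hz)) (by ring))
  obtain ⟨a, e, h1⟩ := mem_lat.1 (k 1 one_lat)
  obtain ⟨u, v, h2⟩ := mem_lat.1 (k τ self_lat)
  refine ⟨(a, e - u, -v), fun p => ?_, ?_⟩
  · rw [show a = 0 from congrArg Prod.fst p] at h1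
    have := (B.ind (a := c) (b := 0) (c := 0) (d := e) (by simpa using h1.symm)).1
    omega
  · simp only [evq]
    push_cast
    linear_combination (τ : ℂ) * h1 - h2

section

variable {K : Type} [Field K] [NumberField K] {j : K →+* Qb} {g : GQ}

theorem ar_j (h1 : RC1) (q : Iq K) (hc : 0 < c) (e : Ex σ g) :
    σ (jL (Oc (JJ j) c)) = io (g (jc j c)) := by rw [← (h1 K j q c hc).1, e]

theorem hc_iff (h1 : RC1) (q : Iq K) (hc : 0 < c) (e : Ex σ g) (hg : g ∈ GK j) :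
    g ∈ Hc j c ↔ jL (Oc (JJ j) c) = σ (jL (Oc (JJ j) c)) := by
  rw [ar_j h1 q hc e, ← (h1 K j q c hc).1, io_inj.eq_iff, eq_comm, Hc, Subgroup.mem_inf,
    and_iff_right hg]
  rfl

theorem bs (hI : IQ) (q : Iq K) (j : K →+* Qb) : ∃ η, Bs (JJ j) η :=
  (hI K j q).imp fun _ h => ⟨h.1, h.2⟩

end

end Hg

open Hg

theorem hg1 (hI : IQ) (hJ : JH) (h1 : RC1) (hC : CJ0) : HG1 := fun K _ _ j q N c I hN hc co hn => by
  obtain ⟨ω, B⟩ := bs hI q j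
  refine ⟨?_, fun τ τ' h => at_uq hC hN h, fun τ h => form_of B hc h.choose_spec.1,
    fun τ σ g hg h e => ?_, fun M I' τ hM co' hn2 hn' h => ?_⟩
  · obtain ⟨η, hη, B⟩ := B.ex hn
    obtain ⟨t, n, e⟩ := B.sq
    exact (B.hp hc hN e hn hη).imp fun _ k => k.2
  · rw [hc_iff h1 q hc e hg]
    refine ⟨fun k => ?_, fun ⟨ψ, t, _⟩ => (At.j h).trans (t.jL.trans (congrArg σ (At.j h).symm))⟩
    obtain ⟨ψ, t⟩ := tp_of_j hJ (B.lat hc) (B.lat hc) k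
    exact (st_cj hN h t (e.JJ hg)).1 h
  · obtain ⟨η, hη, B⟩ := B.ex hn2
    obtain ⟨t, n, e⟩ := B.sq
    obtain ⟨ω', hω, k⟩ := at_iff.1 h
    have k0 := k
    rw [B.st_Oc hc (mul_pos hN hM) e hn2 hη] at k
    have i1 : η ∈ I := Ideal.mul_le_left (I := I) (J := I') hη
    have i2 : η ∈ I' := Ideal.mul_le_right (I := I) (J := I') hη
    have k1 := (B.st_Oc hc hN e hn i1).trans (ov_mul hM k)
    rw [mul_comm N] at k
    have k2 := (B.st_Oc hc hM e hn' i2).trans (ov_mul hN k)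
    have hp : Hp (JJ j) N I c τ := at_iff.2 ⟨ω', hω, k1⟩
    refine ⟨hp, fun g σ τ' ar ex e' => ?_⟩
    have hh := hom_ov hM hω e'
    rw [← k2] at hh
    obtain ⟨ψ, t⟩ := tp_of_j hJ (σ := σ) (B.lat hc) (hh.isLat (isLat _))
      (by rw [ar_j h1 q hc ex, ar.2])
    refine (st_cj hN hp t (ex.JJ ar.1)).1 (at_iff.2 ⟨_, hh, ?_⟩)
    have e3 : ω' / M / N = ω' / (N * M : ℕ) := by
      rw [div_div, mul_comm, Nat.cast_mul]
    rw [st_mul kl_Oc ((hn.1 N).2 dvd_rfl) ((hn'.1 M).2 dvd_rfl)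
      (Nat.isCoprime_iff_coprime.2 co.symm) (Nat.isCoprime_iff_coprime.2 co'.symm), e3, k0, k2]
    refine le_antisymm (ov_le (le_ov.trans le_ov) self_ov) (ov_le (ov_le le_ov ?_) self_ov)
    have : (N : ℂ) ≠ 0 := by exact_mod_cast hN.ne'
    exact mem_of_eq (nat_mul_mem N (self_ov (x := ω' / (N * M : ℕ)))) (by push_cast; field_simp)

end Vale.Agent.P004K
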