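import Vale.Agent.P004K.St2
import Vale.Agent.P004K.Bas

/-! # P004K: row UN -/

set_option autoImplicit false

open scoped Classical

noncomputable section

namespace Vale.Agent.P004K

open Vale.Agent.P022 P027H P027M.M WeierstrassCurve.Affine
open P004M.TE (Pt ga Cv pa pa_some pa_inj ga_some)
open Vale.Agent.P009.Z (xc yc)
open Vale.Agent.P009.H883 (ext_pt)

theorem Hg.un_iff {A B : ℤ} {Λ : Submodule ℤ ℂ} (h : IsLat Λ) (h2 : g2 Λ = -4 * A)
    (h3 : g3 Λ = -4 * B) : ∃ ex : ℂ →+ (Cv ℂ (A : ℚ) (B : ℚ)).Point, Function.Surjective ex ∧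
      (∀ z, ex z = 0 ↔ z ∈ Λ) ∧ ∀ z (y : Pt A B), Un Λ z y ↔ ex z = pa io y := by
  have eA : algebraMap ℚ ℂ (A : ℚ) = A := map_intCast _ A
  have eB : algebraMap ℚ ℂ (B : ℚ) = B := map_intCast _ B
  obtain ⟨Λ', h', e2, e3, ex, s, k, v⟩ := exists_unif (algebraMap ℚ ℂ (A : ℚ))
    (algebraMap ℚ ℂ (B : ℚ)) (by
      have := h.disc_ne
      rwa [h2, h3, show -(-4 * (A : ℂ)) / 4 = A by ring, show -(-4 * (B : ℂ)) / 4 = B by ring,
        ← eA, ← eB] at this)
  obtain rfl := h'.ext_g h (by rw [e2, h2, eA]) (by rw [e3, h3, eB])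
  refine ⟨ex, s, k, fun z y => ⟨fun u => ?_, fun u => ⟨fun a => ?_, fun a => ?_⟩⟩⟩
  · by_cases a : z ∈ Λ'
    · rw [u.1 a, map_zero]
      exact (k z).2 a
    · obtain ⟨x, w, n, rfl, p, q⟩ := u.2 a
      rw [pa_some]
      exact ext_pt (mt (k z).1 a) (Point.some_ne_zero _) ((v z).1.trans p.symm)
        (by change _ = io w; linear_combination (v z).2 / 2 - q)
  · exact pa_inj io (u.symm.trans (((k z).2 a).trans (map_zero _).symm))
  · rcases y with _ | ⟨x, w, n⟩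
    · exact absurd ((k z).1 (u.trans (map_zero _))) a
    · rw [pa_some] at u
      have := v z
      erw [u] at this
      exact ⟨x, w, n, rfl, this.1, by
        have t : 2 * io w = _ := this.2
        linear_combination t / 2⟩

theorem un : UN := fun A B Λ h h2 h3 => by
  obtain ⟨ex, s, k, v⟩ := Hg.un_iff h h2 h3
  refine ⟨fun y => (s (pa io y)).imp fun z e => (v z y).2 e, fun z z' y y' a b => ?_,
    fun z y σ g φ a e t => ⟨fun b => ?_, fun b => ?_⟩⟩
  · rw [v] at a b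
    refine ⟨(v _ _).2 (by rw [map_add, map_add, a, b]), ?_⟩
    rw [← k, map_sub, sub_eq_zero, a, b, (pa_inj io).eq_iff]
  · rw [a.1 ((t.mem z).1 b), map_zero]
  · obtain ⟨x, w, n, rfl, p, q⟩ := a.2 (mt (t.mem z).2 b)
    refine ⟨_, _, _, ga_some g n, ?_, ?_⟩
    · rw [← e, p, t.wp]
      rfl
    · rw [← e, q, t.dwp, map_div₀, map_ofNat]
      rfl

end Vale.Agent.P004K
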