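import Vale.Agent.P004K.St
import Vale.Agent.P004K.Bas
import Vale.Agent.P004Z.Hd.Dv

/-! # P004K: rows FT, ZG, SUM -/

set_option autoImplicit false

open UpperHalfPlane CongruenceSubgroup
open scoped MatrixGroups NumberTheorySymbols

noncomputable section

namespace Vale.Agent.P004K

open Vale.Agent.P022 P027H P027M.M
open P004Z (Fm disc evq Zd Zp eps Ok Reps ph gc)
open P004Z.Hd

namespace Hg

variable {σ : ℂ ≃+* ℂ} {τ τ' : ℍ} {ψ : ℂ → ℂ}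

theorem ind {a b c d : ℤ} (h : (a : ℂ) * τ + b = c * τ + d) : a = c ∧ b = d := by
  have := int_indep τ (s := (a - c : ℤ)) (t := (b - d : ℤ)) (by push_cast; linear_combination h)
  exact ⟨sub_eq_zero.1 (by exact_mod_cast this.1), sub_eq_zero.1 (by exact_mod_cast this.2)⟩

theorem lat_mem (a b : ℤ) : (a : ℂ) * τ + b ∈ lat τ := mem_lat.2 ⟨a, b, rfl⟩

theorem div_mem {M : ℕ} (hM : 0 < M) {a b : ℤ} :
    ((a : ℂ) * τ + b) / M ∈ lat τ ↔ (M : ℤ) ∣ a ∧ (M : ℤ) ∣ b := by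
  have h0 : (M : ℂ) ≠ 0 := by exact_mod_cast hM.ne'
  rw [mem_lat]
  constructor
  · rintro ⟨m, n, h⟩
    have := ind (τ := τ) (a := a) (b := b) (c := M * m) (d := M * n) (by
      rw [eq_div_iff h0] at h
      push_cast
      linear_combination -h)
    exact ⟨⟨m, this.1⟩, ⟨n, this.2⟩⟩
  · rintro ⟨⟨m, rfl⟩, n, rfl⟩
    exact ⟨m, n, by push_cast; field_simp⟩

theorem end_mem {l : Fm} (hl : evq l τ = 0) : ∀ z ∈ lat τ, (l.1 : ℂ) * τ * z ∈ lat τ := fun z hz => by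
  obtain ⟨m, n, rfl⟩ := mem_lat.1 hz
  refine mem_lat.2 ⟨n * l.1 - m * l.2.1, -(m * l.2.2), ?_⟩
  rw [evq] at hl
  push_cast
  linear_combination (-m : ℂ) * hl

/-- the transported form -/
theorem core (h : Tp σ (lat τ) (lat τ') ψ) {l : Fm} (hl : evq l τ = 0) :
    ∃ (m : Fm) (e : ℤ), evq m τ' = 0 ∧ disc m = disc l ∧ m.2.1 = l.2.1 + 2 * e ∧
      σ (l.1 * τ) = m.1 * τ' + e := by
  by_cases a : l.1 = 0
  · obtain rfl := root_zero hl a
    exact ⟨0, 0, by simp [evq], rfl, by simp, by simp⟩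
  have k := (h.cm (end_mem hl)).1
  obtain ⟨a', e, h1⟩ := mem_lat.1 (k 1 (mem_of_eq (lat_mem 0 1) (by simp)))
  obtain ⟨u, v, h2⟩ := mem_lat.1 (k τ' (mem_of_eq (lat_mem 1 0) (by simp)))
  rw [mul_one] at h1
  have h3 : σ (l.1 * τ) ^ 2 + l.2.1 * σ (l.1 * τ) + l.1 * l.2.2 = 0 := by
    have : ((l.1 : ℂ) * τ) ^ 2 + l.2.1 * (l.1 * τ) + l.1 * l.2.2 = 0 := by
      rw [evq] at hl
      linear_combination (l.1 : ℂ) * hl
    simpa only [map_add, map_mul σ (l.2.1 : ℂ), map_mul σ (l.1 : ℂ) (l.2.2 : ℂ), map_pow,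
      map_intCast, map_zero] using congrArg σ this
  have h4 := ind (τ := τ') (a := a' * (u + e + l.2.1)) (b := a' * v + e ^ 2 + l.2.1 * e + l.1 * l.2.2)
    (c := 0) (d := 0) (by
      push_cast
      linear_combination h3 + (a' : ℂ) * h2 + (σ (l.1 * τ) + e + l.2.1) * h1)
  have h5 : a' ≠ 0 := fun e0 => by
    rw [e0, Int.cast_zero, zero_mul, zero_add, ← map_intCast σ] at h1
    exact a (ind (τ := τ) (a := l.1) (b := 0) (c := 0) (d := e) (by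
      simpa using (σ.injective h1).symm)).1
  have h6 : u = -e - l.2.1 := by
    have := (mul_eq_zero.1 h4.1).resolve_left h5
    omega
  refine ⟨(a', l.2.1 + 2 * e, -v), e, ?_, ?_, rfl, h1.symm⟩
  · rw [h6] at h2
    simp only [evq]
    push_cast at h2 ⊢
    linear_combination (τ' : ℂ) * h1 - h2
  · simp only [disc]
    linear_combination 4 * h4.2

theorem core' (h : Tp σ (lat τ) (lat τ') ψ) {l : Fm} (hl : evq l τ = 0) :
    ∃ m : Fm, evq m τ' = 0 ∧ σ (2 * l.1 * τ + l.2.1) = 2 * m.1 * τ' + m.2.1 := by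
  obtain ⟨m, e, h1, -, h3, h4⟩ := core h hl
  refine ⟨m, h1, ?_⟩
  rw [mul_assoc, map_add, map_mul, h4, h3, map_intCast, map_ofNat]
  push_cast
  ring

theorem uq {l m : Fm} (hl : evq l τ = 0) (hm : evq m τ = 0)
    (e : (2 * l.1 * τ + l.2.1 : ℂ) = 2 * m.1 * τ + m.2.1) : l = m := by
  have := (ind (τ := τ) (a := 2 * l.1) (b := l.2.1) (c := 2 * m.1) (d := m.2.1) (by
    push_cast; exact e)).1
  exact root_eq hm hl (by omega)

end Hg

open Hg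

theorem ft : FT := fun σ M k τ τ' hM ⟨ψ, h, h1, h2⟩ => by
  have key : ∀ l : {l : Fm // evq l τ = 0}, ∃ m : {l : Fm // evq l τ' = 0}, disc m.1 = disc l.1 ∧
      (M : ℤ) ∣ k * m.1.1 - l.1.1 ∧ (2 * M : ℤ) ∣ m.1.2.1 - l.1.2.1 ∧
      (M : ℤ) ∣ m.1.2.2 - k * l.1.2.2 ∧
      σ (2 * l.1.1 * τ + l.1.2.1) = 2 * m.1.1 * τ' + m.1.2.1 := fun ⟨l, hl⟩ => by
    obtain ⟨m, e, a, b, c, d⟩ := core h hl
    obtain ⟨k1, k2⟩ := h.cm (end_mem hl)
    rw [d] at k1 k2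
    have hl' := hl
    have a' := a
    rw [evq] at hl' a'
    have c' : (m.2.1 : ℂ) = l.2.1 + 2 * e := by exact_mod_cast c
    have e1 := (div_mem (τ := τ') hM (a := k * m.1 - l.1) (b := k * e)).1 (by
      have p := k2 (1 / M)
      rw [show (l.1 : ℂ) * τ * (1 / M) = l.1 * (τ / M) by ring] at p
      refine mem_of_eq (sub_mem (add_mem (h.int l.1 (τ / M)) (int_mul_mem l.1 h1))
        (add_mem p (k1 _ h2))) ?_
      push_cast
      ring)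
    have e2 := (div_mem (τ := τ') hM (a := e) (b := m.2.2 - k * l.2.2)).1 (by
      have p := k2 (τ / M)
      rw [show (l.1 : ℂ) * τ * (τ / M) = (-l.2.1 : ℤ) * (τ / M) + (-l.2.2 : ℤ) * (1 / M) by
        push_cast; linear_combination (M : ℂ)⁻¹ * hl'] at p
      refine mem_of_eq (sub_mem (add_mem p (k1 _ h1)) (add_mem (add_mem
        (h.lin (-l.2.1) (-l.2.2) (τ / M) (1 / M)) (int_mul_mem (-l.2.1) h1))
        (int_mul_mem (-l.2.2) h2))) ?_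
      push_cast
      linear_combination (M : ℂ)⁻¹ * a' - (M : ℂ)⁻¹ * τ' * c')
    refine ⟨⟨m, a⟩, b, e1.1, ?_, e2.2, ?_⟩
    · simpa only [c, add_sub_cancel_left] using mul_dvd_mul_left 2 e2.1
    · simp only
      rw [mul_assoc, map_add, map_mul, d, c', map_intCast, map_ofNat]
      ring
  choose f hf using key
  refine ⟨Equiv.ofBijective f ⟨fun l m e => Subtype.ext (uq l.2 m.2 (σ.injective ?_)),
    fun m => ?_⟩, hf⟩
  · rw [(hf l).2.2.2.2, (hf m).2.2.2.2, e]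
  · obtain ⟨χ, t, -⟩ := h.symm
    obtain ⟨l, a, b⟩ := core' t m.2
    refine ⟨⟨l, a⟩, Subtype.ext (uq (f _).2 m.2 ?_)⟩
    rw [← (hf ⟨l, a⟩).2.2.2.2, ← b]
    exact σ.apply_symm_apply _

namespace Hg

theorem ze_mul {N M : ℕ} (hN : 0 < N) (k : ℤ) : ze (N * M) k ^ N = ze M k := by
  have h0 : (N : ℂ) ≠ 0 := by exact_mod_cast hN.ne'
  rw [ze, ze, ← Complex.exp_nat_mul]
  congr 1
  push_cast
  by_cases h : (M : ℂ) = 0
  · simp [h]
  field_simp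

theorem Cy.of_mul {σ : ℂ ≃+* ℂ} {N M : ℕ} (hN : 0 < N) {k : ℤ} (h : Cy σ (N * M) k) : Cy σ M k := by
  rw [Cy, ← ze_mul hN, ← ze_mul hN k, map_pow, h]

theorem ze_inj {M : ℕ} (hM : 0 < M) {a b : ℤ} (h : ze M a = ze M b) : (M : ℤ) ∣ a - b := by
  have h0 : (M : ℂ) ≠ 0 := by exact_mod_cast hM.ne'
  obtain ⟨n, hn⟩ := Complex.exp_eq_exp_iff_exists_int.1 h
  refine ⟨n, ?_⟩
  have : ((a - b : ℤ) : ℂ) = (M * n : ℤ) := by
    push_cast
    refine mul_left_cancel₀ Complex.two_pi_I_ne_zero ?_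
    field_simp at hn
    linear_combination 2 * Real.pi * Complex.I * hn
  exact_mod_cast this

theorem gc_tr {δ : ℕ} (hs : Squarefree δ) {k : ℤ} (hk : IsCoprime k δ) {l m : Fm}
    (h1 : (δ : ℤ) ∣ k * m.1 - l.1) (h2 : (δ : ℤ) ∣ m.2.2 - k * l.2.2) :
    gc δ m = J(k | δ) * gc δ l := by
  rw [J_prod hs, gc_def, gc_def, ← Finset.prod_mul_distrib]
  refine Finset.prod_congr rfl fun p hp => ?_
  have pp := Nat.prime_of_mem_primeFactors hp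
  have d := Int.natCast_dvd_natCast.2 (Nat.dvd_of_mem_primeFactors hp)
  have n := ndvd hp hk
  have i : (p : ℤ) ∣ m.1 ↔ (p : ℤ) ∣ l.1 := by
    rw [← dvd_iff_dvd_of_dvd_sub (d.trans h1), (Nat.prime_iff_prime_int.1 pp).dvd_mul, or_iff_right n]
  simp only [gp, i]
  split_ifs
  · rw [J_congr (d.trans h2), jacobiSym.mul_left]
  · rw [← J_congr (d.trans h1), jacobiSym.mul_left, ← mul_assoc, ← sq,
      jacobiSym.sq_one (gcd_one pp n), one_mul]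

theorem ph_tr {N δ : ℕ} (hs : Squarefree δ) {k : ℤ} (hk : IsCoprime k (N * δ : ℕ)) {l m : Fm}
    (h0 : disc m = disc l) (h1 : ((N * δ : ℕ) : ℤ) ∣ k * m.1 - l.1)
    (h3 : (2 * (N * δ : ℕ) : ℤ) ∣ m.2.1 - l.2.1) (h2 : ((N * δ : ℕ) : ℤ) ∣ m.2.2 - k * l.2.2)
    (r : ZMod (2 * N)) : ph N δ r m = J(k | δ) * ph N δ r l := by
  rw [Nat.cast_mul] at hk h1 h2 h3
  have i : (N : ℤ) ∣ m.1 ↔ (N : ℤ) ∣ l.1 := by
    rw [← dvd_iff_dvd_of_dvd_sub (dvd_of_mul_right_dvd h1)]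
    exact ⟨fun a => a.mul_left k, hk.of_mul_right_left.symm.dvd_of_dvd_mul_left⟩
  have e : (m.2.1 : ZMod (2 * N)) = l.2.1 := cast_eq (by
    rw [← mul_assoc] at h3
    exact_mod_cast dvd_of_mul_right_dvd h3)
  rw [ph, ph, h0, e, mul_ite, mul_zero,
    gc_tr hs hk.of_mul_right_right (dvd_of_mul_left_dvd h1) (dvd_of_mul_left_dvd h2)]
  simp only [i]

theorem sq_disc {l : Fm} {τ : ℍ} (h : evq l τ = 0) : (2 * l.1 * τ + l.2.1 : ℂ) ^ 2 = disc l := by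
  rw [evq] at h
  rw [disc]
  push_cast
  linear_combination (4 * l.1 : ℂ) * h

theorem sign {l m : Fm} (τ τ' : ℍ) (e : (2 * l.1 * τ + l.2.1 : ℂ) = 2 * m.1 * τ' + m.2.1) :
    0 < l.1 ↔ 0 < m.1 := by
  have := congrArg Complex.im e
  simp only [Complex.add_im, Complex.mul_im, Complex.mul_re, Complex.re_ofNat, Complex.intCast_re,
    Complex.im_ofNat, Complex.intCast_im, mul_zero, zero_mul, add_zero, sub_zero, coe_im] at this
  rw [← Int.cast_pos (R := ℝ), ← Int.cast_pos (R := ℝ) (n := m.1),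
    ← mul_pos_iff_of_pos_right (a := (m.1 : ℝ)) τ'.im_pos,
    ← mul_pos_iff_of_pos_right (a := (l.1 : ℝ)) τ.im_pos]
  constructor <;> intro <;> linarith

theorem Zp_tr {N δ n : ℕ} {r r' : ZMod (2 * N)} {τ τ' : ℍ} {c : ℤ}
    (e : {l : Fm // evq l τ = 0} ≃ {l : Fm // evq l τ' = 0}) (h1 : ∀ l, disc (e l).1 = disc l.1)
    (h2 : ∀ l, disc l.1 = -((δ : ℤ) * n) → (0 < l.1.1 ↔ 0 < (e l).1.1))
    (h3 : ∀ l, ph N δ r' (e l).1 = c * ph N δ r l.1) : Zp N δ n r' τ' = c * Zp N δ n r τ := by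
  by_cases H : ∃ l, disc l = -((δ : ℤ) * n) ∧ evq l τ = 0 ∧ 0 < l.1
  · obtain ⟨l, a, b, d⟩ := H
    rw [Zp_eq a b d, Zp_eq ((h1 ⟨l, b⟩).trans a) (e ⟨l, b⟩).2 ((h2 ⟨l, b⟩ a).1 d), h3]
  · have k : Zp N δ n r τ = 0 := by
      by_contra e
      exact H ((Zp_ne e).imp fun l a => ⟨a.1, a.2.1, a.2.2.1⟩)
    rw [k, mul_zero]
    by_contra e'
    obtain ⟨m, a, b, d, -⟩ := Zp_ne e'
    obtain ⟨l, hl⟩ := e.surjective ⟨m, b⟩
    have a' : disc l.1 = -((δ : ℤ) * n) := by rw [← h1, hl, a]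
    exact H ⟨l, a', l.2, (h2 l a').2 (by rw [hl]; exact d)⟩

/-- `l ↦ -l` -/
def ng (τ : ℍ) : {l : Fm // evq l τ = 0} ≃ {l : Fm // evq l τ = 0} :=
  (Equiv.neg Fm).subtypeEquiv fun l => by rw [Equiv.neg_apply, evq_neg, neg_eq_zero]

theorem ng_val {τ : ℍ} (l : {l : Fm // evq l τ = 0}) : (ng τ l).1 = -l.1 := rfl

end Hg

theorem zg (hT : TRX) (hC : CJ0) : ZG := fun N _ δ ok σ k τ τ' hk hc n r θ hθ => by
  have hN := NeZero.pos N
  have hδ : 0 < δ := by have := ok.one; omega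
  have hM := mul_pos hN hδ
  obtain ⟨⟨k', hk'⟩, T⟩ := hT σ _ hM
  obtain ⟨co, T⟩ := T k' hk'
  obtain ⟨w, hw⟩ := T τ
  obtain ⟨-, c1, c2, -⟩ := hC σ N hN
  obtain ⟨γ, hγ, rfl⟩ := (c2 τ w τ' (c1 _ _ _ _ hM (dvd_mul_right N δ) hw)).1 hc
  obtain ⟨e, he⟩ := ft σ _ k' τ w hM hw
  have ek : J(k | δ) = J(k' | δ) := J_congr (ze_inj hδ (hk.symm.trans (Cy.of_mul hN hk')))
  have p : ∀ r l, ph N δ r (e l).1 = J(k' | δ) * ph N δ r l.1 := fun r l =>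
    ph_tr ok.sq co (he l).1 (he l).2.1 (he l).2.2.1 (he l).2.2.2.1 r
  have s : ∀ l : {l : Fm // evq l τ = 0}, disc l.1 = -((δ : ℤ) * n) →
      (2 * l.1.1 * τ + l.1.2.1 : ℂ) = θ ∨ (2 * l.1.1 * τ + l.1.2.1 : ℂ) = -θ := fun l a =>
    sq_eq_sq_iff_eq_or_eq_neg.1 (by rw [sq_disc l.2, a, hθ]; push_cast; rfl)
  have z1 : σ θ = θ → ∀ r, Zp N δ n r (γ • w) = J(k | δ) * Zp N δ n r τ := fun h r => by
    rw [Zp_inv ok.odd hγ, ek]
    refine Zp_tr e (fun l => (he l).1) (fun l a => sign τ w ?_) (p r)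
    rw [← (he l).2.2.2.2]
    rcases s l a with b | b <;> rw [b]
    · exact h.symm
    · rw [map_neg, h]
  have z2 : σ θ = -θ → ∀ r, Zp N δ n r (γ • w) = J(k | δ) * eps δ * Zp N δ n (-r) τ := fun h r => by
    rw [Zp_inv ok.odd hγ, ek]
    refine Zp_tr ((ng τ).trans e) (fun l => (he _).1.trans (disc_neg _))
      (fun l a => sign τ w ?_) fun l => ?_
    · rw [Equiv.trans_apply, ← (he _).2.2.2.2, ng_val, Prod.fst_neg, Prod.snd_neg, Prod.fst_neg,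
        Int.cast_neg, Int.cast_neg, mul_neg, neg_mul, ← neg_add, map_neg]
      rcases s l a with b | b <;> rw [b]
      · rw [h, neg_neg]
      · rw [map_neg, h, neg_neg]
    · rw [Equiv.trans_apply, p, ng_val, mul_assoc, ← ph_neg ok.sq, neg_neg]
  refine ⟨?_, fun h => z1 h r, fun h => z2 h r⟩
  rw [Zd_eq ok, Zd_eq ok]
  have : σ θ ^ 2 = θ ^ 2 := by rw [← map_pow, hθ, map_neg, map_mul, map_natCast, map_natCast]
  rcases sq_eq_sq_iff_eq_or_eq_neg.1 this with h | h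
  · rw [z1 h, z1 h]
    ring
  · rw [z2 h, z2 h, neg_neg]
    linear_combination J(k | δ) * Zp N δ n r τ * eps_sq δ

theorem sum_row (hC : CJ0) : SUM := fun σ N A A' s s' hN h h' e B _ Φ Φ' eΦ => by
  obtain ⟨c0, -, c2, c3, -⟩ := hC σ N hN
  obtain ⟨d0, -, d2, d3, -⟩ := hC σ⁻¹ N hN
  have key : ∀ z ∈ s, ∃ w ∈ s', Cj0 σ N z w := fun z hz => by
    obtain ⟨w, hw⟩ := c0 z
    obtain ⟨γ, a, b⟩ := h'.ex w (by rw [e z w hw]; exact h.sup z hz)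
    exact ⟨_, b, (c2 z w _ hw).2 ⟨γ, a, rfl⟩⟩
  choose f f1 f2 using key
  refine (Finset.sum_bij f f1 (fun z hz w hw q => ?_) (fun w hw => ?_) fun z hz => ?_).symm
  · obtain ⟨γ, a, b⟩ := (d2 _ z w (c3 _ _ (f2 z hz))).1 (q ▸ c3 _ _ (f2 w hw))
    exact h.uq z hz w hw γ a b
  · obtain ⟨z, hz⟩ := d0 w
    have i : ∀ z, Cj0 σ⁻¹ N w z → Cj0 σ N z w := fun z hz => by simpa using d3 _ _ hz
    obtain ⟨γ, a, b⟩ := h.ex z (by rw [← e z w (i z hz)]; exact h'.sup w hw)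
    obtain ⟨γ', a', b'⟩ := (c2 _ _ w (f2 _ b)).1 (i _ ((d2 w z _ hz).2 ⟨γ, a, rfl⟩))
    exact ⟨_, b, h'.uq _ (f1 _ b) w hw γ' a' b'⟩
  · rw [e _ _ (f2 z hz), eΦ _ _ (f2 z hz)]

end Vale.Agent.P004K
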