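import Vale.Agent.P004K.Hg.At

/-! # P004K: row HG2 (the Hecke neighbours of a Heegner point) -/

set_option autoImplicit false

open UpperHalfPlane CongruenceSubgroup NumberField
open scoped MatrixGroups

noncomputable section

namespace Vale.Agent.P004K

open Vale.Agent.P022 P027H P027M.M

namespace Hg

variable {σ : ℂ ≃+* ℂ} {τ : ℍ} {ψ : ℂ → ℂ} {Λ Λ' M M' : Submodule ℤ ℂ} {x y z ω μ : ℂ}
  {N c l k k' : ℕ}

theorem cop_p (hl : l.Prime) {a : ℤ} (h : ¬ (l : ℤ) ∣ a) : IsCoprime a (l : ℤ) :=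
  ((Nat.prime_iff_prime_int.1 hl).irreducible.coprime_iff_not_dvd.2 h).symm

theorem nd1 (hl : l.Prime) : ¬ (l : ℤ) ∣ 1 := (Nat.prime_iff_prime_int.1 hl).not_dvd_one

theorem ov_eq (hl : l.Prime) (h : x ∈ ov Λ y) (hx : x ∉ Λ) (hy : (l : ℂ) * y ∈ Λ) :
    ov Λ x = ov Λ y := by
  obtain ⟨a, e⟩ := mem_ov.1 h
  refine le_antisymm (ov_le le_ov h) (ov_le le_ov (bez (cop_p hl (a := a) ?_)
    (mem_of_eq (sub_mem self_ov (le_ov e)) (by ring)) (le_ov hy)))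
  rintro ⟨b, rfl⟩
  exact hx (mem_of_eq (add_mem e (int_mul_mem b hy)) (by push_cast; ring))

theorem mul_ov (h : (l : ℂ) * x ∈ Λ) (hz : z ∈ ov Λ x) : (l : ℂ) * z ∈ Λ := by
  obtain ⟨a, e⟩ := mem_ov.1 hz
  exact mem_of_eq (add_mem (nat_mul_mem l e) (int_mul_mem a h)) (by ring)

theorem tp_ov (t : Tp σ Λ Λ' ψ) (h : IsLat (ov Λ x)) : Tp σ (ov Λ x) (ov Λ' (ψ x)) ψ :=
  t.sup' le_ov h le_ov fun z => by
    rw [mem_ov, mem_ov]
    refine exists_congr fun a => ?_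
    rw [← t.sub_iff, ← Λ'.add_mem_iff_right (neg_mem (t.int a x))]
    exact iff_of_eq (congrArg (· ∈ Λ') (by ring))

/-- generators of the lines -/
def xk (ω : ℂ) (τ : ℍ) (l k : ℕ) : ℂ := if k < l then ω * ((τ + k) / l) else ω / l

/-- the neighbours -/
def pk (τ : ℍ) (l k : ℕ) : ℍ := if k < l then ofComplex ((τ + k) / l) else ofComplex (l * τ)

theorem tl_eq {B : Type} [AddCommGroup B] (Φ : ℍ → B) :
    Tl l Φ τ = ∑ k ∈ Finset.range (l + 1), Φ (pk τ l k) := by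
  rw [Finset.sum_range_succ, Tl, add_comm, pk, if_neg (lt_irrefl l)]
  congr 1
  exact Finset.sum_congr rfl fun k hk => by rw [pk, if_pos (Finset.mem_range.1 hk)]

theorem coe_of {w : ℂ} (h : 0 < w.im) : (ofComplex w : ℂ) = w := by
  rw [ofComplex_apply_of_im_pos h]

section

variable (hl : l.Prime) (h : Hom ω (lat τ) Λ)
include hl h

theorem dv {a b : ℤ} (e : x = ω * ((a * τ + b) / l)) : x ∈ Λ ↔ (l : ℤ) ∣ a ∧ (l : ℤ) ∣ b := by
  rw [e, ← h.2, div_mem hl.pos]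

theorem xk_mul : (l : ℂ) * xk ω τ l k ∈ Λ := by
  have h0 : (l : ℂ) ≠ 0 := by exact_mod_cast hl.ne_zero
  rw [xk]
  split_ifs
  · exact mem_of_eq ((h.2 _).1 (lat_mem 1 k)) (by push_cast; field_simp)
  · exact mem_of_eq ((h.2 _).1 one_lat) (by field_simp)

theorem xk_not : xk ω τ l k ∉ Λ := by
  rw [xk]
  split_ifs
  · exact fun e => nd1 hl ((dv hl h (a := 1) (b := k) (by simp)).1 e).1
  · exact fun e => nd1 hl ((dv hl h (a := 0) (b := 1) (by simp [div_eq_mul_inv])).1 e).2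

theorem xk_inj (a : k ≤ l) (b : k' ≤ l) (e : ov Λ (xk ω τ l k) = ov Λ (xk ω τ l k')) : k = k' := by
  obtain ⟨u, e⟩ := mem_ov.1 (e.le self_ov)
  rw [xk, xk] at e
  split_ifs at e with p q q
  · obtain ⟨d1, d2⟩ := (dv hl h (a := 1 - u) (b := k - u * k') (by push_cast; ring)).1 e
    have : (l : ℤ) ∣ k - k' := by
      simpa [sub_mul] using dvd_sub d2 (d1.mul_right k')
    have := Int.eq_zero_of_abs_lt_dvd this (abs_lt.2 ⟨by omega, by omega⟩)
    omega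
  · exact absurd ((dv hl h (a := 1) (b := k - u) (by push_cast; ring)).1 e).1 (nd1 hl)
  · obtain ⟨d1, d2⟩ := (dv hl h (a := -u) (b := 1 - u * k') (by push_cast; ring)).1 e
    exact absurd (by simpa using dvd_sub d2 (d1.mul_right k')) (nd1 hl)
  · omega

theorem cls (h1 : (l : ℂ) * x ∈ Λ) (h2 : x ∉ Λ) : ∃ k ≤ l, ov Λ x = ov Λ (xk ω τ l k) := by
  have h0 : (l : ℂ) ≠ 0 := by exact_mod_cast hl.ne_zero
  have := h.1
  obtain ⟨u, v, e⟩ := mem_lat.1 ((h.symm.2 _).1 h1)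
  have e' : x = ω * ((u * τ + v) / l) := by rw [e]; field_simp
  by_cases d : (l : ℤ) ∣ u
  · refine ⟨l, le_rfl, ov_eq hl (mem_ov.2 ⟨v, (dv hl h (a := u) (b := 0) ?_).2 ⟨d, dvd_zero _⟩⟩) h2
      (xk_mul hl h)⟩
    rw [xk, if_neg (lt_irrefl l), e']
    push_cast
    ring
  · obtain ⟨a, b, p⟩ := cop_p hl d
    have l0 : (0 : ℤ) < l := by exact_mod_cast hl.pos
    obtain ⟨k, hk⟩ := Int.eq_ofNat_of_zero_le (Int.emod_nonneg (a * v) l0.ne')
    have lt : k < l := by have := Int.emod_lt_of_pos (a * v) l0; omega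
    refine ⟨k, lt.le, ov_eq hl (mem_ov.2 ⟨u, (dv hl h (a := 0) (b := v - u * k) ?_).2
      ⟨dvd_zero _, b * v + u * (a * v / l), ?_⟩⟩) h2 (xk_mul hl h)⟩
    · rw [xk, if_pos lt, e']
      push_cast
      ring
    · rw [← hk, Int.emod_def]
      linear_combination -v * p

theorem at_k (hN : 0 < N) (co : IsCoprime (l : ℤ) N) :
    At N (ov Λ (xk ω τ l k)) (ov (ov Λ (xk ω τ l k)) (ω / N)) (pk τ l k) := by
  have h0 : (l : ℂ) ≠ 0 := by exact_mod_cast hl.ne_zero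
  have h1 : (N : ℂ) ≠ 0 := by exact_mod_cast hN.ne'
  have l0 : (0 : ℝ) < l := by exact_mod_cast hl.pos
  rw [xk, pk, at_iff]
  split_ifs
  · refine ⟨ω, ⟨h.1, fun w => ?_⟩, rfl⟩
    rw [mem_lat, mem_ov, coe_of (by simpa using div_pos τ.im_pos l0)]
    constructor
    · rintro ⟨u, v, rfl⟩
      exact ⟨u, mem_of_eq ((h.2 _).1 (lat_mem 0 v)) (by push_cast; ring)⟩
    · rintro ⟨a, e⟩
      obtain ⟨u, v, p⟩ := mem_lat.1 ((h.2 (w - a * ((τ + k) / l))).2 (mem_of_eq e (by ring)))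
      refine ⟨a + u * l, v - u * k, ?_⟩
      push_cast
      linear_combination p + u * mul_div_cancel₀ (τ + k : ℂ) h0
  · refine ⟨ω / l, hom_ov hl.pos h (coe_of (by simpa using mul_pos l0 τ.im_pos)), le_antisymm
      (ov_le le_ov (mem_of_eq (nat_mul_mem l self_ov) (by field_simp))) (ov_le le_ov (bez co
        (mem_of_eq self_ov ?_) (le_ov (mem_of_eq self_ov ?_))))⟩ <;> push_cast <;> field_simp

end

variable {O : Type} [CommRing O] {J : O →+* ℂ} {I L L' : Ideal O} {η a : O}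

theorem ex_J (h : x ∈ Oc J c) : ∃ a, J a = x := by
  obtain ⟨k, a, rfl⟩ := h
  exact ⟨k + c * a, by simp⟩

theorem Oc_le (h : x ∈ Oc J (c * l)) : x ∈ Oc J c := by
  obtain ⟨k, a, rfl⟩ := h
  exact ⟨k, l * a, by simp [mul_assoc]⟩

theorem l_Oc (h : x ∈ Oc J c) : l * x ∈ Oc J (c * l) := by
  obtain ⟨k, a, rfl⟩ := h
  exact ⟨l * k, a, by push_cast; ring⟩

theorem Bs.dvd (B : Bs J η) (hl : 0 < l) (h : J a / l ∈ Oc J c) : (l : O) ∣ a := by
  obtain ⟨b, e⟩ := ex_J h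
  have h0 : (l : ℂ) ≠ 0 := by exact_mod_cast hl.ne'
  exact ⟨b, B.inj (by rw [map_mul, map_natCast, e]; field_simp)⟩

theorem div_Oc (hl : 0 < l) (co : IsCoprime (l : ℤ) c) (h : J a ∈ Oc J c) (d : (l : O) ∣ a) :
    J a / l ∈ Oc J c := by
  obtain ⟨b, rfl⟩ := d
  have h0 : (l : ℂ) ≠ 0 := by exact_mod_cast hl.ne'
  rw [map_mul, map_natCast] at h ⊢
  rw [mul_div_cancel_left₀ _ h0]
  exact bez co h (c_Oc b)

theorem hom0 (hl : 0 < l) : Hom (l : ℂ)⁻¹ (Oc J (c * l)) (ov (Oc J c) (1 / l)) := by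
  have h0 : (l : ℂ) ≠ 0 := by exact_mod_cast hl.ne'
  refine ⟨inv_ne_zero h0, fun z => ⟨?_, fun h => ?_⟩⟩
  · rintro ⟨k, a, rfl⟩
    exact mem_ov.2 ⟨k, mem_of_eq (c_Oc a) (by push_cast; field_simp; ring)⟩
  · obtain ⟨k, e⟩ := mem_ov.1 h
    exact mem_of_eq (add_mem (l_Oc e) (int_Oc k)) (by field_simp; ring)

theorem st_span (hl : 0 < l) (co : IsCoprime (l : ℤ) c) {d : O} (ha : a = 1 + c * d) (a0 : J a ≠ 0)
    (h : IsCoprime a l) :
    Hom (J a / l) (st J (Ideal.span {a}) (Oc J (c * l))) (ov (Oc J c) (J a / l)) := by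
  have h0 : (l : ℂ) ≠ 0 := by exact_mod_cast hl.ne'
  have ha' : J a = 1 + c * J d := by simp [ha]
  refine ⟨div_ne_zero a0 h0, fun z => ⟨fun hz => ?_, fun hz x hx p => ?_⟩⟩
  · have k : ∀ b, J a * J b ∈ Oc J (c * l) → J a * J b * z ∈ Oc J (c * l) := fun b hb => by
      rw [← map_mul] at hb ⊢
      exact hz _ (Ideal.mem_span_singleton.2 (dvd_mul_right a b)) (end_Oc.2 hb)
    obtain ⟨u, v, e⟩ := h.pow_right (n := 2)
    have e' : J u * J a + J v * l ^ 2 = 1 := by simpa using congrArg J e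
    obtain ⟨m, b, q⟩ := k (c * u) ⟨c, -(l * v), by simp; linear_combination c * e'⟩
    have k2 := Oc_le (k l ⟨l, d, by simp [ha']; ring⟩)
    have k3 := Oc_le (k (l * c * v) ⟨0, a * v, by simp; ring⟩)
    simp only [map_mul, map_natCast] at q k2 k3
    refine bez (co.pow_left (m := 2)) (le_ov (mem_of_eq k2 (by push_cast; field_simp)))
      (mem_ov.2 ⟨m, mem_of_eq (add_mem k3 (c_Oc (a * b))) ?_⟩)
    rw [map_mul]
    push_cast at q ⊢
    field_simp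
    linear_combination q - c * z * e'
  · obtain ⟨b, rfl⟩ := Ideal.mem_span_singleton.1 hx
    obtain ⟨m, e⟩ := mem_ov.1 hz
    have p := end_Oc.1 p
    have q : J b ∈ Oc J c := mem_of_eq (sub_mem (Oc_le p) (c_Oc (d * b))) (by
      rw [map_mul, map_mul, ha']; ring)
    refine mem_of_eq (add_mem (l_Oc (mul_Oc q e)) (int_mul_mem m p)) ?_
    rw [map_mul]
    field_simp
    ring

/-- the overlattices that generate `l⁻¹ O_c` -/
def Go (J : O →+* ℂ) (c l : ℕ) (M : Submodule ℤ ℂ) : Prop :=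
  ∃ a : O, IsCoprime a l ∧ J a ∈ Oc J c ∧ M = ov (Oc J c) (J a / l)

theorem Go.mem (hl : 0 < l) (co : IsCoprime (l : ℤ) c) (h : Go J c l M) (h' : Go J c l M')
    (k : Hom μ M M') : μ ∈ Oc J c := by
  have h0 : (l : ℂ) ≠ 0 := by exact_mod_cast hl.ne'
  obtain ⟨a, ⟨u, v, e⟩, -, rfl⟩ := h
  obtain ⟨a', -, p, rfl⟩ := h'
  have e' : J u * J a + J v * l = 1 := by simpa using congrArg J e
  have q : ∀ z ∈ ov (Oc J c) (J a / l), l * (μ * z) ∈ Oc J c := fun z hz =>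
    mul_ov (mem_of_eq p (by field_simp)) ((k.2 z).1 hz)
  refine bez co (mem_of_eq (q 1 (le_ov one_Oc)) (by simp)) (mem_of_eq (add_mem
    (mul_Oc (c_Oc u) (q _ self_ov)) (q _ (le_ov (c_Oc v)))) ?_)
  push_cast
  field_simp
  linear_combination -c * μ * e'

theorem Go.eq (B : Bs J η) (U : ∀ u : Oˣ, u = 1 ∨ u = -1) (hl : 0 < l) (co : IsCoprime (l : ℤ) c)
    (h : Go J c l M) (h' : Go J c l M') (k : Hom μ M M') : M = M' := by
  obtain ⟨a, e⟩ := ex_J (h.mem hl co h' k)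
  obtain ⟨b, e'⟩ := ex_J (h'.mem hl co h k.symm)
  have p : a * b = 1 := B.inj (by rw [map_mul, e, e', mul_inv_cancel₀ k.1, map_one])
  ext z
  rw [k.2, ← e]
  rcases U ⟨a, b, p, mul_comm a b ▸ p⟩ with q | q
  · rw [show a = 1 from congrArg Units.val q, map_one, one_mul]
  · rw [show a = -1 from congrArg Units.val q, map_neg, map_one, neg_one_mul, neg_mem_iff]

theorem Bs.inv (B : Bs J η) (hl : l.Prime) (hc : 0 < c) : (1 / l : ℂ) ∉ Oc J c := fun e =>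
  nd1 hl ((div_mem (τ := B.pt hc) hl.pos (a := 0) (b := 1)).1 (by simpa [B.Oc_eq hc] using e)).2

theorem go_tp (B : Bs J η) (hl : 0 < l) (t : Tp σ (Oc J c) (Oc J c) ψ) (hσ : ∀ a, σ (J a) = J a) :
    l * ψ (1 / l) ∈ Oc J c ∧ Go J c l (ov (Oc J c) (ψ (1 / l))) := by
  have h0 : (l : ℂ) ≠ 0 := by exact_mod_cast hl.ne'
  have k : l * ψ (1 / l) ∈ Oc J c := mem_of_eq (sub_mem ((t.mem (((l : ℤ) : ℂ) * (1 / l))).2
    (mem_of_eq one_Oc (by push_cast; field_simp))) (t.int l (1 / l))) (by push_cast; ring)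
  obtain ⟨a, e⟩ := ex_J k
  obtain ⟨z, hz⟩ := t.surj (1 / l)
  have k' : ((l : ℤ) : ℂ) * z ∈ Oc J c := (t.mem _).1 (mem_of_eq (add_mem (add_mem (t.int l z)
    (nat_mul_mem l hz)) one_Oc) (by rw [mul_sub, mul_one_div_cancel h0]; push_cast; ring))
  obtain ⟨b, e'⟩ := ex_J k'
  have p := tp_mul t hσ (end_Oc.2 (e' ▸ k')) (1 / l)
  rw [show J b * (1 / l) = z by rw [e']; push_cast; field_simp] at p
  obtain ⟨d, hd⟩ := B.dvd hl (a := b * a - 1) (mem_of_eq (sub_mem hz p) (by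
    rw [map_sub, map_mul, e, map_one]
    generalize ψ (1 / l) = A
    field_simp
    ring))
  exact ⟨k, a, ⟨b, -d, by linear_combination hd⟩, e ▸ k, by rw [e, mul_div_cancel_left₀ _ h0]⟩

section split

variable (hl : l.Prime) (h1 : L ⊔ L' = ⊤) (h2 : L ≠ ⊤) (h3 : L' ≠ ⊤)
  (h4 : L * L' = Ideal.span {(l : O)})

include h1 h3 h4 in
theorem not_le : ¬ ∀ b ∈ L, (l : O) ∣ b := fun h => h3 (by
  rw [← h1, eq_comm, sup_eq_right]
  exact fun b hb => Ideal.mul_le_right (I := L) (h4.ge (Ideal.mem_span_singleton.2 (h b hb))))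

include hl h1 h2 h3 h4 in
theorem Bs.cn (B : Bs J η) : Cn l L := by
  have m : (l : O) ∈ L := Ideal.mul_le_left (J := L') (h4.ge (Ideal.mem_span_singleton_self _))
  have k : ∀ k : ℤ, (k : O) ∈ L ↔ (l : ℤ) ∣ k := fun k => ⟨fun e => by
    by_contra d
    obtain ⟨u, v, p⟩ := cop_p hl d
    refine h2 ((Ideal.eq_top_iff_one _).2 ?_)
    rw [← Int.cast_one, ← p]
    push_cast
    exact add_mem (L.mul_mem_left _ e) (L.mul_mem_left _ m), fun ⟨u, e⟩ => by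
      rw [e]
      push_cast
      exact L.mul_mem_right _ m⟩
  refine ⟨k, fun a => ?_⟩
  obtain ⟨b, hb, d⟩ : ∃ b ∈ L, ¬ (l : O) ∣ b := by simpa using not_le h1 h3 h4
  obtain ⟨u, v, rfl⟩ := B.bas b
  obtain ⟨p, q, rfl⟩ := B.bas a
  obtain ⟨r, s, e⟩ := cop_p hl (a := v) fun ⟨w, e⟩ => by
    obtain ⟨w', e'⟩ := (k u).1 (by
      simpa [e, mul_assoc] using L.sub_mem hb (L.mul_mem_right (w * η) m))
    exact d ⟨w' + w * η, by rw [e, e']; push_cast; ring⟩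
  have e' : (r : O) * v + s * l = 1 := by exact_mod_cast congrArg (Int.cast : ℤ → O) e
  refine ⟨p - q * r * u, ?_⟩
  have := add_mem (L.mul_mem_left (q * r) hb) (L.mul_mem_left (q * s * η) m)
  rwa [show (q * r * (u + v * η) + q * s * η * l : O) = p + q * η - (p - q * r * u : ℤ) by
    push_cast; linear_combination q * η * e'] at this

include hl in
theorem inv_cn (h : Cn l L) (ha : a ∉ L) : ∃ k : O, a * k - 1 ∈ L := by
  obtain ⟨k, e⟩ := h.2 a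
  obtain ⟨u, v, p⟩ := cop_p hl (a := k) fun d => ha (by simpa using add_mem e ((h.1 k).2 d))
  have p' : (u : O) * k + v * l = 1 := by exact_mod_cast congrArg (Int.cast : ℤ → O) p
  have := sub_mem (L.mul_mem_left u e) ((h.1 (v * l)).2 (dvd_mul_left _ _))
  exact ⟨u, by rwa [show u * (a - k) - (v * l : ℤ) = a * u - 1 by
    push_cast; linear_combination -p'] at this⟩

include hl h4 in
theorem cop_split (h : Cn l L) (h' : Cn l L') (ha : a ∉ L) (ha' : a ∉ L') : IsCoprime a l := by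
  obtain ⟨k, e⟩ := inv_cn hl h ha
  obtain ⟨k', e'⟩ := inv_cn hl h' ha'
  obtain ⟨d, p⟩ := Ideal.mem_span_singleton.1 (h4.le (Ideal.mul_mem_mul e e'))
  exact ⟨k + k' - a * k * k', d, by linear_combination -p⟩

include hl h4 in
theorem mem_st_split (co : IsCoprime (l : ℤ) c) (h : J a ∈ Oc J c) (ha : a ∈ L') :
    J a / l ∈ st J L (Oc J c) := fun b hb p => by
  rw [← mul_div_assoc, ← map_mul]
  exact div_Oc hl.pos co (by rw [map_mul]; exact p _ h)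
    (Ideal.mem_span_singleton.1 (h4.le (Ideal.mul_mem_mul hb ha)))

include hl h1 h3 h4 in
theorem not_go (B : Bs J η) (co : IsCoprime (l : ℤ) c) : ¬ Go J c l (st J L (Oc J c)) :=
  fun ⟨a, p, _, e⟩ => not_le h1 h3 h4 fun b hb => by
    have k := e.ge self_ov _ (L.mul_mem_left c hb) (kl_Oc b)
    rw [← mul_div_assoc, ← map_mul] at k
    have co' : IsCoprime (l : O) c := by simpa using co.map (Int.castRingHom O)
    exact co'.dvd_of_dvd_mul_left (p.symm.dvd_of_dvd_mul_right (B.dvd hl.pos k))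

include h1 in
theorem st_ne (co : IsCoprime (l : ℤ) c) (h : x ∈ st J L (Oc J c)) (h' : x ∈ st J L' (Oc J c))
    (k : l * x ∈ Oc J c) : x ∈ Oc J c := by
  obtain ⟨a, ha, b, hb, e⟩ := Submodule.mem_sup.1 (h1.ge Submodule.mem_top : (1 : O) ∈ L ⊔ L')
  have e' : J a + J b = 1 := by simpa using congrArg J e
  refine bez co k (mem_of_eq (add_mem (h _ (L.mul_mem_left c ha) (kl_Oc a))
    (h' _ (L'.mul_mem_left c hb) (kl_Oc b))) ?_)
  simp only [map_mul, map_natCast]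
  push_cast
  linear_combination -c * x * e'

include hl in
theorem Bs.st_k (B : Bs J η) (hc : 0 < c) (h : Cn l L) (k : Hom ω (P027M.M.lat τ) (Oc J c)) :
    ∃ k ≤ l, st J L (Oc J c) = ov (Oc J c) (xk ω τ l k) := by
  have h0 : (l : ℂ) ≠ 0 := by exact_mod_cast hl.ne_zero
  obtain ⟨η, hη, B⟩ := B.ex h
  obtain ⟨t, n, e⟩ := B.sq
  rw [B.st_Oc hc hl.pos e h hη]
  refine cls hl k (mem_of_eq (c_Oc (t - η)) (by simp; field_simp)) fun p => nd1 hl (dvd_neg.1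
    ((div_mem (τ := B.pt hc) hl.pos (a := -1) (b := c * t)).1 (mem_of_eq (B.Oc_eq hc ▸ p) ?_)).1)
  rw [B.coe]
  push_cast
  ring

end split

variable {K : Type} [Field K] [NumberField K] {j : K →+* Qb} {g : GQ}

omit [NumberField K] in
theorem hc_fix (h : g ∈ Hc j c) : g (jc j c) = jc j c := h.2

theorem main (hJ : JH) (h1 : RC1) (h2 : RC2) (hC : CJ0) (q : Iq K) (U : Upm K) {η : 𝓞 K}
    (B : Bs (JJ j) η) {n : ℕ} {I : Ideal (𝓞 K)} {t : GQ} {τ' : ℍ} {w : ℕ → ℍ} (hN : 0 < N)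
    (hc : 0 < c) (hl : l.Prime) (co : IsCoprime (l : ℤ) c) (G : Gen j c l n t) (ex : Ex σ t)
    (h : Hom ω (lat τ) (Oc (JJ j) c)) (hp : Hp (JJ j) N I (c * l) τ')
    (hw : ∀ i, Cj0 (σ ^ i) N τ' (w i)) : ∃ κ : ℕ → ℕ, (∀ i, κ i ≤ l ∧
      Go (JJ j) c l (ov (Oc (JJ j) c) (xk ω τ l (κ i))) ∧ At N (ov (Oc (JJ j) c) (xk ω τ l (κ i)))
        (st (JJ j) I (ov (Oc (JJ j) c) (xk ω τ l (κ i)))) (w i)) ∧
      Set.InjOn κ (Finset.range n) ∧
      ∀ k ≤ l, Go (JJ j) c l (ov (Oc (JJ j) c) (xk ω τ l k)) → ∃ i < n, κ i = k := by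
  have h0 : (l : ℂ) ≠ 0 := by exact_mod_cast hl.ne_zero
  have hcl := mul_pos hc hl.pos
  have t0 := tp_hom (hom0 (J := JJ j) (c := c) hl.pos) (B.lat hcl)
  have a0 := (st_cj hN hp t0 fun _ => rfl).2 ((hC 1 N hN).2.2.2.2.2.1 τ')
  have key : ∀ i, ∃ k ≤ l, Go (JJ j) c l (ov (Oc (JJ j) c) (xk ω τ l k)) ∧
      At N (ov (Oc (JJ j) c) (xk ω τ l k)) (st (JJ j) I (ov (Oc (JJ j) c) (xk ω τ l k))) (w i) ∧
      jL (ov (Oc (JJ j) c) (xk ω τ l k)) = io ((t ^ i) (jc j (c * l))) := fun i => by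
    have m := pow_mem G.1 i
    obtain ⟨ψ, p⟩ := tp_of_j hJ (B.lat hc) (B.lat hc) ((hc_iff h1 q hc (ex.pow i) m.1).1 m)
    obtain ⟨p1, p2⟩ := go_tp B hl.pos p ((ex.pow i).JJ m.1)
    obtain ⟨k, hk, e⟩ := cls hl h p1 (mt (p.mem _).1 (B.inv hl hc))
    have p3 := tp_ov p t0.lat'
    rw [e] at p2 p3
    refine ⟨k, hk, p2, (st_cj hN a0 p3 ((ex.pow i).JJ m.1)).2 (hw i), ?_⟩
    rw [p3.jL, t0.jL, ← ar_j h1 q hcl (ex.pow i)]
    rfl
  choose κ k1 k2 k3 k4 using key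
  have inj : ∀ i i', i ≤ i' → κ i = κ i' → n ∣ i' - i := fun i i' le e => by
    refine (G.2.1 _).1 ⟨pow_mem G.1.1 _, (t ^ i).injective ?_⟩
    have := io_inj ((k4 i').symm.trans (e ▸ k4 i))
    rwa [← Nat.add_sub_cancel' le, pow_add, AlgEquiv.mul_apply] at this
  have n0 : 0 < n := Nat.pos_of_ne_zero fun e => not_injective_infinite_finite
    (fun i => (⟨κ i, Nat.lt_succ_of_le (k1 i)⟩ : Fin (l + 1))) fun i i' p => by
      have p := congrArg Fin.val p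
      subst e
      rcases le_total i i' with le | le
      · have := zero_dvd_iff.1 (inj i i' le p); omega
      · have := zero_dvd_iff.1 (inj i' i le p.symm); omega
  refine ⟨κ, fun i => ⟨k1 i, k2 i, k3 i⟩, fun i hi i' hi' e => ?_, fun k hk go => ?_⟩
  · have hi := Finset.mem_range.1 hi
    have hi' := Finset.mem_range.1 hi'
    rcases le_total i i' with le | le
    · have := Nat.eq_zero_of_dvd_of_lt (inj i i' le e) (by omega); omega
    · have := Nat.eq_zero_of_dvd_of_lt (inj i' i le e.symm) (by omega); omega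
  obtain ⟨a, ca, ma, ea⟩ := id go
  obtain ⟨u, v, uv⟩ := id co
  have uv' : (u : 𝓞 K) * l + v * c = 1 := by exact_mod_cast congrArg (Int.cast : ℤ → 𝓞 K) uv
  obtain ⟨b, hb⟩ : ∃ b, b = 1 + c * (v * (a - 1)) := ⟨_, rfl⟩
  have hb' : b = a + (-u * (a - 1)) * l := by linear_combination hb + (a - 1) * uv'
  have cb : IsCoprime b l := hb' ▸ ca.add_mul_right_left _
  have cc : IsCoprime b c := ⟨1, -(v * (a - 1)), by linear_combination hb⟩
  have eb : ov (Oc (JJ j) c) (JJ j b / l) = ov (Oc (JJ j) c) (xk ω τ l k) := by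
    have : JJ j b / l - JJ j a / l ∈ Oc (JJ j) c := mem_of_eq (int_mul_mem (-u) (sub_mem ma one_Oc))
      (by rw [hb']; simp; field_simp; ring)
    rw [ea]
    exact le_antisymm (ov_le le_ov (mem_ov.2 ⟨1, by simpa using this⟩))
      (ov_le le_ov (mem_ov.2 ⟨1, by simpa using neg_mem this⟩))
  have b0 : JJ j b ≠ 0 := fun e => xk_not hl h (k := k) (ov_le le_rfl (by simp [e]) (eb.ge self_ov))
  have cp : ∀ m : ℕ, IsCoprime b m → Cop m (Ideal.span {b}) := fun m hm =>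
    ⟨fun e => b0 (by rw [Ideal.span_singleton_eq_bot.1 e, map_zero]),
      Ideal.isCoprime_iff_sup_eq.1 ((Ideal.isCoprime_span_singleton_iff _ _).2 hm)⟩
  have cp1 := cp (c * l) (by simpa using cc.mul_right cb)
  obtain ⟨g, ar⟩ := (h2 K j q _ hcl).1 _ cp1
  obtain ⟨-, -, -, -, r5, r6, -⟩ := h2 K j q c hc
  obtain ⟨i, hi⟩ := G.2.2 g ((r5 _ g (cp c cc) (r6 l _ g hl.pos cp1 ar)).2
    ⟨1, _, by rw [Int.cast_one, ← hb]⟩)
  have hs := st_span hl.pos co hb b0 cb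
  rw [eb] at hs
  have la : ∀ k, IsLat (ov (Oc (JJ j) c) (xk ω τ l k)) := fun k =>
    ov_lat (B.lat hc) hl.pos (xk_mul hl h)
  obtain ⟨μ, hμ⟩ := (hJ _ _ (la (κ (i % n))) (la k)).1 (by
    have f1 := congrArg (t ^ (i % n)) (hc_fix ((G.2.1 (n * (i / n))).2 (dvd_mul_right _ _)))
    have f2 := congrArg g (hc_fix hi)
    rw [← AlgEquiv.mul_apply, ← pow_add, Nat.mod_add_div] at f1
    rw [← AlgEquiv.mul_apply, mul_inv_cancel_left] at f2
    rw [k4, jL_hom hs (hs.symm.isLat (la k)), ← ar.2, ← f1, f2])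
  exact ⟨i % n, Nat.mod_lt _ n0, xk_inj hl h (k1 _) hk ((k2 _).eq B U hl.pos co go hμ)⟩

end Hg

open Hg

theorem hg2 (hI : IQ) (hJ : JH) (h1 : RC1) (h2 : RC2) (hC : CJ0) : HG2 :=
    fun K _ _ j q U N c l n I t σ τ τ' w hN hc _ hn hl nd G ex hp hp' hw B _ Φ hΦ => by
  obtain ⟨η, B0⟩ := bs hI q j
  have h0 : (l : ℂ) ≠ 0 := by exact_mod_cast hl.ne_zero
  have co : IsCoprime (l : ℤ) c := (cop_p hl fun d => nd
    ((Int.natCast_dvd_natCast.1 d).mul_right N)).symm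
  have co' : IsCoprime (l : ℤ) N := (cop_p hl fun d => nd
    ((Int.natCast_dvd_natCast.1 d).mul_left c)).symm
  obtain ⟨ω, h, hs⟩ := at_iff.1 hp
  obtain ⟨κ, k1, k2, k3⟩ := main hJ h1 h2 hC q U B0 hN hc hl co G ex h hp' hw
  have ph : ∀ k z, At N (ov (Oc (JJ j) c) (xk ω τ l k))
      (st (JJ j) I (ov (Oc (JJ j) c) (xk ω τ l k))) z → Φ z = Φ (pk τ l k) := fun k z e => by
    rw [st_ov (m := l) (xk_mul hl h) ((hn.1 N).2 dvd_rfl) co' hs] at e
    obtain ⟨γ, a, rfl⟩ := (at_uq hC hN (at_k hl h hN co')).1 e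
    exact hΦ γ a _
  have s1 : ∑ i ∈ Finset.range n, Φ (w i) = ∑ k ∈ (Finset.range n).image κ, Φ (pk τ l k) := by
    rw [Finset.sum_image k2]
    exact Finset.sum_congr rfl fun i _ => ph _ _ (k1 i).2.2
  have im : ∀ k, k ∈ (Finset.range n).image κ ↔
      k ≤ l ∧ Go (JJ j) c l (ov (Oc (JJ j) c) (xk ω τ l k)) := fun k => by
    simp only [Finset.mem_image, Finset.mem_range]
    exact ⟨fun ⟨i, _, e⟩ => e ▸ ⟨(k1 i).1, (k1 i).2.1⟩, fun e => k3 k e.1 e.2⟩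
  have xa : ∀ k, ∃ a, JJ j a ∈ Oc (JJ j) c ∧ xk ω τ l k = JJ j a / l := fun k => by
    obtain ⟨a, e⟩ := ex_J (xk_mul hl h (k := k))
    exact ⟨a, e ▸ xk_mul hl h, by rw [e, mul_div_cancel_left₀ _ h0]⟩
  rw [s1, tl_eq]
  refine ⟨fun pr => Finset.sum_congr (Finset.ext fun k => ?_) fun _ _ => rfl,
    fun L L' g g' s s' z z' e1 e2 e3 e4 ar ar' ex ex' c1 c2 => ?_⟩
  · rw [im, Finset.mem_range, Nat.lt_succ_iff, and_iff_left]
    obtain ⟨a, ma, e⟩ := xa k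
    obtain ⟨u, v, hv, p⟩ := (pr.isMaximal (mt Ideal.span_singleton_eq_bot.1
      (Nat.cast_ne_zero.2 hl.ne_zero))).exists_inv (x := a) fun d =>
        xk_not hl h (e ▸ div_Oc hl.pos co ma (Ideal.mem_span_singleton.1 d))
    obtain ⟨d, rfl⟩ := Ideal.mem_span_singleton'.1 hv
    exact ⟨a, ⟨u, d, p⟩, ma, by rw [e]⟩
  have e1' := (sup_comm L' L).trans e1
  have e4' := (mul_comm L' L).trans e4
  have n1 := B0.cn hl e1 e2 e3 e4
  have n2 := B0.cn hl e1' e3 e2 e4'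
  obtain ⟨a, ha, p⟩ := B0.st_k hl hc n1 h
  obtain ⟨b, hb, p'⟩ := B0.st_k hl hc n2 h
  have zz : ∀ L g s z k, st (JJ j) L (Oc (JJ j) c) = ov (Oc (JJ j) c) (xk ω τ l k) → Ar j c L g →
      Ex s g → Cj0 s N τ z → Φ z = Φ (pk τ l k) := fun L g s z k p ar ex c1 => by
    obtain ⟨ψ, t⟩ := tp_of_j hJ (σ := s) (B0.lat hc) (ov_lat (B0.lat hc) hl.pos (xk_mul hl h))
      (by rw [ar_j h1 q hc ex, ar.2, p])
    exact ph k z ((st_cj hN hp t (ex.JJ ar.1)).2 c1)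
  have na : a ∉ (Finset.range n).image κ := fun e =>
    not_go hl e1 e3 e4 B0 co (p ▸ ((im a).1 e).2)
  have nb : b ∉ insert a ((Finset.range n).image κ) := fun e => (Finset.mem_insert.1 e).elim
    (fun e => xk_not hl h (st_ne e1 co (p.ge self_ov) (p'.ge (e ▸ self_ov)) (xk_mul hl h)))
    fun e => not_go hl e1' e2 e4' B0 co (p' ▸ ((im b).1 e).2)
  rw [zz L g s z a p ar ex c1, zz L' g' s' z' b p' ar' ex' c2, add_comm _ (Φ (pk τ l a)),
    ← Finset.sum_insert (f := fun k => Φ (pk τ l k)) na, add_comm,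
    ← Finset.sum_insert (f := fun k => Φ (pk τ l k)) nb]
  refine Finset.sum_congr (Finset.ext fun k => ?_) fun _ _ => rfl
  rw [Finset.mem_insert, Finset.mem_insert, im, Finset.mem_range, Nat.lt_succ_iff]
  refine ⟨fun e => e.elim (· ▸ hb) fun e => e.elim (· ▸ ha) And.left, fun hk => ?_⟩
  obtain ⟨d, md, e⟩ := xa k
  by_cases d1 : d ∈ L
  · exact Or.inl (xk_inj hl h hk hb (ov_eq hl (p'.le (e ▸ mem_st_split hl e4' co md d1))
      (xk_not hl h) (xk_mul hl h)))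
  by_cases d2 : d ∈ L'
  · exact Or.inr (Or.inl (xk_inj hl h hk ha (ov_eq hl (p.le (e ▸ mem_st_split hl e4 co md d2))
      (xk_not hl h) (xk_mul hl h))))
  · exact Or.inr (Or.inr ⟨hk, d, cop_split hl e4 n1 n2 d1 d2, md, by rw [e]⟩)

end Vale.Agent.P004K
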