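import Vale.Agent.P004K.Hg.At
import Vale.Agent.P004K.Hg.Un
import Vale.Agent.P004Z.Th.Gs

/-! # P004K: rows BD0, BDL -/

set_option autoImplicit false

open UpperHalfPlane CongruenceSubgroup NumberField
open scoped MatrixGroups NumberTheorySymbols Classical

noncomputable section

namespace Vale.Agent.P004K

open Vale.Agent.P022 P027H P027M.M
open P004Z (Fm evq disc fa Dat Bd eps gs ee evd)
open P004Z.Hd

namespace Hg

variable {O : Type} [CommRing O] {J : O →+* ℂ} {I : Ideal O} {η θ ω : O} {N δ δ' c : ℕ} {β : ℤ}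

theorem Bs.eta (B : Bs J ω) (hs : Squarefree δ') (h : θ ^ 2 = -(δ' : O)) (hi : 0 < (J θ).im)
    (e : 2 * η = θ - β) : Bs J η := by
  obtain ⟨u, v, rfl⟩ := B.bas η
  obtain ⟨t, n, k⟩ := B.sq
  have e1 : J θ = 2 * u + β + 2 * v * J ω := by
    have := congrArg J e
    simp only [map_mul, map_add, map_sub, map_intCast, map_ofNat] at this
    linear_combination -this
  have h' : J θ ^ 2 = -δ' := by simpa using congrArg J h
  have k' : J ω ^ 2 = t * J ω - n := by simpa using congrArg J k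
  obtain ⟨a, b⟩ := B.ind (a := 4 * v * (2 * u + β + v * t)) (b := (2 * u + β) ^ 2 - 4 * v ^ 2 * n)
    (c := 0) (d := -δ') (by
      rw [e1] at h'
      push_cast
      linear_combination h' - 4 * v ^ 2 * k')
  have v0 : 0 < v := by
    rw [e1] at hi
    simpa [B.im] using hi
  have a' : 2 * u + β = -(v * t) := by
    have := (mul_eq_zero.1 a).resolve_left (by omega)
    omega
  have := Int.isUnit_iff.1 (Int.squarefree_natCast.2 hs v ⟨4 * n - t ^ 2, by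
    rw [a'] at b
    linear_combination b⟩)
  obtain rfl : v = 1 := by omega
  simpa [add_comm] using B.sub (-u)

theorem Bs.ex_cn (B : Bs J η) {t n : ℤ} (e : η ^ 2 = t * η - n) {m : ℕ} (h : (m : ℤ) ∣ n) :
    ∃ A : Ideal O, Cn m A ∧ η ∈ A := by
  obtain ⟨n, rfl⟩ := h
  let A : Ideal O :=
    { carrier := {x | ∃ u v : ℤ, x = m * u + v * η}
      add_mem' := by
        rintro _ _ ⟨u, v, rfl⟩ ⟨u', v', rfl⟩
        exact ⟨u + u', v + v', by push_cast; ring⟩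
      zero_mem' := ⟨0, 0, by simp⟩
      smul_mem' := by
        rintro a _ ⟨u, v, rfl⟩
        obtain ⟨p, q, rfl⟩ := B.bas a
        refine ⟨p * u - q * v * n, p * v + q * m * u + q * v * t, ?_⟩
        rw [smul_eq_mul]
        push_cast at e ⊢
        linear_combination q * v * e }
  refine ⟨A, ⟨fun k => ⟨fun ⟨u, v, p⟩ => ⟨u, ?_⟩, fun ⟨u, p⟩ => ⟨u, 0, by simp [p]⟩⟩, fun a => ?_⟩,
    0, 1, by simp⟩
  · exact (B.ind (a := 0) (b := k) (c := v) (d := m * u) (by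
      simpa [add_comm] using congrArg J p)).2
  · obtain ⟨p, q, rfl⟩ := B.bas a
    exact ⟨p, 0, q, by simp⟩

theorem cop_int {m : ℕ} (h : Cn m I) (h0 : 0 < m) [CharZero O] (e : IsCoprime (m : ℤ) c) :
    Cop c I := by
  have hm := (h.1 m).2 dvd_rfl
  refine ⟨fun p => h0.ne' (by simpa [p] using hm), (Ideal.eq_top_iff_one _).2 ?_⟩
  obtain ⟨u, v, e⟩ := e
  rw [← Int.cast_one, ← e, Int.cast_add, Int.cast_mul, Int.cast_mul, Int.cast_natCast (n := c)]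
  exact add_mem (Ideal.mem_sup_left (I.mul_mem_left _ hm))
    (Ideal.mem_sup_right (Ideal.mul_mem_left _ _ (Ideal.mem_span_singleton_self _)))

theorem root_im {l : Fm} {z : ℍ} {y : ℂ} (h : evq l z = 0) (a : 0 < l.1) (e : y ^ 2 = disc l)
    (i : 0 < y.im) : y = 2 * l.1 * z + l.2.1 :=
  (sq_eq_sq_iff_eq_or_eq_neg.1 (e.trans (sq_disc h).symm)).resolve_right fun k => by
    have : (0 : ℝ) < l.1 * z.im := mul_pos (Int.cast_pos.2 a) z.im_pos
    rw [k] at i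
    simp at i
    linarith

theorem j_sl (hC : CJ0) (γ : SL(2, ℤ)) (z : ℍ) : jL (lat (γ • z)) = jL (lat z) := by
  obtain ⟨-, -, c2, -, -, c5, -⟩ := hC 1 1 one_pos
  obtain ⟨ψ, t, -⟩ := (c2 z z _ (c5 z)).2 ⟨γ, g0_dvd.2 (one_dvd _), rfl⟩
  exact t.jL

/-- the data of the rows -/
structure Dt (J : O →+* ℂ) (N δ δ' : ℕ) (β : ℤ) (η : O) (y : ℂ) (n : ℤ) : Prop where
  d : Dat N δ δ' β
  b : Bs J η
  sq : η ^ 2 = (-β : ℤ) * η - n
  n4 : 4 * n = β ^ 2 + δ'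
  dv : (N : ℤ) ∣ n
  y2 : y = δ * (2 * J η + β)

theorem ex_dt (B : Bs J ω) (d : Dat N δ δ' β) (h : θ ^ 2 = -(δ' : O)) (hi : 0 < (J θ).im)
    (e : 2 * η = θ - β) : ∃ y n, Dt J N δ δ' β η y n := by
  obtain ⟨r, hr⟩ := d.rt
  refine ⟨_, 4 * N * r, d, B.eta d.sq h hi e, B.inj ?_, by linear_combination -hr, ⟨4 * r, by ring⟩,
    rfl⟩
  have h' : J θ ^ 2 = -δ' := by simpa using congrArg J h
  have e' : 2 * J η = J θ - β := by simpa [map_ofNat] using congrArg J e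
  have : (β : ℂ) ^ 2 + δ' = 16 * N * r := by exact_mod_cast hr
  simp only [map_pow, map_sub, map_mul, map_intCast]
  push_cast
  linear_combination (h' - this + (2 * J η + J θ + β) * e') / 4

namespace Dt

variable {y : ℂ} {n : ℤ} (D : Dt J N δ δ' β η y n)
include D

theorem pos : 0 < δ := by have := D.d.ok.one; omega

theorem sq' : J η ^ 2 = -β * J η - n := by simpa using congrArg J D.sq

theorem ysq : y ^ 2 = -((δ : ℂ) * (δ * δ' : ℕ)) := by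
  have : (4 : ℂ) * n = β ^ 2 + δ' := by exact_mod_cast D.n4
  rw [D.y2]
  push_cast
  linear_combination (δ : ℂ) ^ 2 * (4 * D.sq' - this)

theorem fix {σ : ℂ ≃+* ℂ} (h : ∀ a, σ (J a) = J a) : σ y = y := by
  rw [D.y2, map_mul, map_add, map_mul, h, map_natCast, map_intCast, map_ofNat]

theorem root {l : Fm} {z : ℍ} (h : evq l z = 0) (a : 0 < l.1)
    (e : disc l = -((δ : ℤ) * (δ * δ' : ℕ))) : ∃ s : ℤ, l.2.1 = δ * β + 2 * s ∧
    δ * J η = l.1 * z + s ∧ l.1 * l.2.2 = δ ^ 2 * n + δ * β * s + s ^ 2 := by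
  have k := root_im h a (y := y) (by rw [D.ysq, e]; push_cast; rfl) (by
    simpa [D.y2] using mul_pos (Nat.cast_pos.2 D.pos) (mul_pos two_pos D.b.im))
  have p : (l.2.1 - δ * β) * (l.2.1 - δ * β + 2 * (δ * β)) = 4 * (l.1 * l.2.2 - δ ^ 2 * n) := by
    rw [disc] at e
    push_cast at e
    linear_combination e + (δ : ℤ) ^ 2 * D.n4
  obtain ⟨s, hs⟩ : 2 ∣ l.2.1 - δ * β := by
    rcases Int.prime_two.dvd_or_dvd (Dvd.intro (2 * (l.1 * l.2.2 - δ ^ 2 * n))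
      (by rw [p]; ring : _ = (l.2.1 - δ * β) * (l.2.1 - δ * β + 2 * (δ * β)))) with q | q
    exacts [q, (dvd_add_left (dvd_mul_right _ _)).1 q]
  have hs' : (l.2.1 : ℂ) - δ * β = 2 * s := by exact_mod_cast hs
  refine ⟨s, by linear_combination hs, by linear_combination (k - D.y2 + hs') / 2, ?_⟩
  rw [hs] at p
  linarith

theorem cop {b : ℤ} (h : (N : ℤ) ∣ b - δ * β) : IsCoprime (N : ℤ) b := cop_of fun p hp a e => by
  have pp := Nat.prime_iff_prime_int.1 hp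
  have a' := Int.natCast_dvd_natCast.1 a
  have k : (p : ℤ) ∣ δ' := by
    rcases pp.dvd_or_dvd ((dvd_sub_right e).1 (a.trans h)) with q | q
    · exact absurd (Nat.dvd_gcd a' (Int.natCast_dvd_natCast.1 q)) (by
        rw [D.d.ok.cop]; simpa using hp.one_lt.ne')
    · exact (dvd_add_right (dvd_pow q two_ne_zero)).1 ((a.mul_left 16).trans D.d.rt)
  by_cases p2 : p = 2
  · have := D.d.m8
    subst p2
    omega
  · have := D.d.spl p hp p2 (a'.mul_right δ)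
    rw [J_dvd hp.one_lt k.neg_right] at this
    exact zero_ne_one this

variable [NeZero N]

theorem bd_one (hC : CJ0) (hn : Cn N I) (hη : η ∈ I) {τ : ℍ} (h : Hp J N I δ τ) :
    Bd N δ δ' β τ = 1 := by
  have hN := NeZero.pos N
  obtain ⟨w, e, k⟩ := D.b.hp D.pos hN D.sq hn hη
  obtain ⟨γ, hγ, rfl⟩ := (at_uq hC hN k).1 h
  have n0 : 0 < n := by
    have := D.n4
    have := D.d.m8
    have := sq_nonneg β
    omega
  have dl : disc (δ ^ 2 * n, β * δ, 1) = -((δ : ℤ) * (δ * δ' : ℕ)) := by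
    simp only [disc]
    push_cast
    linear_combination -(δ : ℤ) ^ 2 * D.n4
  have dd : (δ : ℤ) ∣ disc (δ ^ 2 * n, β * δ, 1) := dl ▸ (dvd_mul_right _ _).neg_right
  rw [Bd, Zp_inv D.d.ok.odd hγ, Zp_eq (l := (δ ^ 2 * n, β * δ, 1)) dl ?_
    (mul_pos (pow_pos (Nat.cast_pos.2 D.pos) 2) n0), P004Z.ph, if_pos ⟨D.dv.mul_left _, rfl, dd⟩,
    gc_eq D.d.ok.odd D.d.ok.sq dd (x := 0) (y := 1) (by simpa [val] using isCoprime_one_left)]
  · simp [val]
  · simp only [evq]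
    push_cast at e ⊢
    linear_combination ((δ : ℂ) * w) ^ 2 * D.sq' + (δ * w * J η - 1) * e

theorem bd_cj (hT : TRX) (hC : CJ0) (hn : Cn N I) (hη : η ∈ I) {τ z : ℍ} (h : Hp J N I δ τ)
    {σ : ℂ ≃+* ℂ} (hσ : ∀ a, σ (J a) = J a) {k : ℤ} (hk : Cy σ δ k) (e : Cj0 σ N τ z) :
    Bd N δ δ' β z = J(k | δ) := by
  have := (zg hT hC N δ D.d.ok σ k τ z hk e (δ * δ') ((β * δ : ℤ) : ZMod (2 * N)) y D.ysq).2.1
    (D.fix hσ)
  rw [Bd, this, ← Bd, D.bd_one hC hn hη h, mul_one]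

omit [NeZero N] in
theorem ideal (hC : CJ0) [CharZero O] {l : Fm} {z : ℍ} (h : evq l z = 0) (a : 0 < l.1)
    (e : disc l = -((δ : ℤ) * (δ * δ' : ℕ))) (p : Prm δ l) :
    ∃ A, Cop δ A ∧ jL (lat z) = jL (st J A (Oc J δ)) := by
  obtain ⟨γ, co⟩ := rep (Nat.cast_ne_zero.2 D.pos.ne') p
  have d0 := root_neg h a.ne'
  have a1 := pos_fa d0 a γ
  have h1 : evq (fa l γ) (γ⁻¹ • z : ℍ) = 0 := by rwa [root_fa, smul_inv_smul]
  rw [← j_sl hC γ⁻¹]
  rw [← disc_fa l γ] at e d0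
  generalize fa l γ = l at *
  generalize γ⁻¹ • z = z at *
  obtain ⟨s, e1, e2, e3⟩ := D.root h1 a1 e
  have c0 : 0 < l.2.2 := by
    rw [disc] at d0
    nlinarith [sq_nonneg l.2.1]
  obtain ⟨m, hm⟩ := Int.eq_ofNat_of_zero_le c0.le
  have m0 : 0 < m := by omega
  rw [hm] at co e3
  obtain ⟨u, v, uv⟩ := id co
  have q : (η - (v * s : ℤ)) ^ 2 = (-β - 2 * (v * s) : ℤ) * (η - (v * s : ℤ)) -
      (n + β * (v * s) + (v * s) ^ 2 : ℤ) := by
    have := D.sq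
    push_cast at this ⊢
    linear_combination this
  obtain ⟨A, hA, hη⟩ := (D.b.sub (v * s)).ex_cn q (m := m)
    ((co.pow_right (n := 2)).dvd_of_dvd_mul_left ⟨l.1 - δ * β * u * s - 2 * s ^ 2 * u + m * s ^ 2 * u ^ 2, by
      linear_combination -e3 + (δ * β * s + s ^ 2 * (v * δ - u * m + 1)) * uv⟩)
  refine ⟨A, cop_int hA m0 co, (jL_hom (c := (z : ℂ)⁻¹) ⟨inv_ne_zero z.ne_zero, fun w => ?_⟩
    (isLat z)).symm⟩
  rw [(D.b.sub (v * s)).st_Oc D.pos m0 q hA hη, mem_ov, mem_lat]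
  have z0 := z.ne_zero
  have m1 : (m : ℂ) ≠ 0 := by exact_mod_cast m0.ne'
  have uv' : (u : ℂ) * m + v * δ = 1 := by exact_mod_cast uv
  have e4 : δ * J η = -(m * (z : ℂ)⁻¹) - δ * β - s := by
    rw [evq, e1, hm] at h1
    rw [e2]
    push_cast at h1
    field_simp
    linear_combination h1
  have e5 : (δ * (((-β - 2 * (v * s) : ℤ) : ℂ) - J (η - (v * s : ℤ))) / m) = (z : ℂ)⁻¹ + u * s := by
    rw [map_sub, map_intCast, div_eq_iff m1]
    push_cast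
    linear_combination -e4 - s * uv'
  rw [e5, D.b.Oc_eq D.pos]
  simp only [mem_lat, D.b.coe, e4]
  constructor
  · rintro ⟨p, q, rfl⟩
    exact ⟨q, 0, p - q * u * s, by push_cast; field_simp; ring⟩
  · rintro ⟨a, p, q, k⟩
    refine ⟨q + a * u * s - p * (δ * β + s), a - p * m, mul_left_cancel₀ (inv_ne_zero z0) ?_⟩
    push_cast
    linear_combination k + (q + a * u * s - p * (δ * β + s) : ℂ) * inv_mul_cancel₀ z0

theorem at_z (hn : Cn N I) (hη : η ∈ I) {z : ℍ} (h : Bd N δ δ' β z ≠ 0)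
    (E : ∀ a, (∀ w ∈ lat z, J a * w ∈ lat z) ↔ J a ∈ Oc J δ) :
    At N (lat z) (st J I (lat z)) z := by
  have hN := NeZero.pos N
  have h0 : (N : ℂ) ≠ 0 := by exact_mod_cast hN.ne'
  obtain ⟨l, e, r, a, p⟩ := Zp_ne h
  obtain ⟨⟨a', ha⟩, p2, -⟩ := ph_ne p
  obtain ⟨s, e1, e2, -⟩ := D.root r a e
  obtain ⟨s', hs⟩ : ((2 * N : ℕ) : ℤ) ∣ l.2.1 - β * δ :=
    (ZMod.intCast_eq_intCast_iff_dvd_sub _ _ _).1 p2.symm
  have co := D.cop (b := l.2.1) ⟨2 * s', by push_cast at hs; linear_combination hs⟩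
  obtain rfl : s = N * s' := by push_cast at hs; linarith
  rw [ha] at e2
  rw [evq, ha] at r
  push_cast at e2 r
  refine ⟨1, Hom.refl _, fun w => ?_⟩
  rw [D.b.st_iff hn hη E]
  constructor
  · rintro ⟨h1, h2⟩
    obtain ⟨u, v, k⟩ := mem_lat.1 h1
    obtain ⟨u, rfl⟩ := co.dvd_of_dvd_mul_left ((div_mem hN (a := l.2.1 * u) (b := l.2.2 * u)).1
      (mem_of_eq (sub_mem (lat_mem (a' * v + s' * u) (s' * v)) h2) (by
        rw [e2]
        push_cast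
        field_simp
        linear_combination u * r - (N * a' * z + N * s') * k))).1
    refine ⟨v, mem_lat.2 ⟨u, 0, ?_⟩⟩
    push_cast at k ⊢
    field_simp
    linear_combination k
  · rintro ⟨p, k⟩
    refine ⟨mem_of_eq (add_mem (nat_mul_mem N k) (lat_mem 0 p)) (by push_cast; field_simp; ring),
      mem_of_eq (add_mem ((E (δ * η)).2 (by simpa using c_Oc η) _ k) (lat_mem (p * a') (p * s'))) ?_⟩
    rw [map_mul, map_natCast, e2]
    push_cast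
    field_simp
    ring

end Dt

theorem gs_cy {σ : ℂ ≃+* ℂ} {k : ℤ} (ho : Odd δ) (hs : Squarefree δ) (h : Cy σ δ k) :
    σ (gs δ) = J(k | δ) * gs δ := by
  have e : ∀ (k : ℤ) (x : ℕ), ee ((k * x : ℤ) / δ) = ze δ k ^ x := fun k x => by
    rw [ze, ← Complex.exp_nat_mul, ee]
    congr 1
    push_cast
    ring
  rw [← P004Z.Gq.gk_eq ho hs, ← P004Z.Gq.gk_one, P004Z.Gq.gk, P004Z.Gq.gk, map_sum]
  exact Finset.sum_congr rfl fun x _ => by rw [e, e, map_mul, map_pow, map_intCast, h]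

end Hg

open Hg

theorem bd0 (hI : IQ) (hJ : JH) (h1 : RC1) (h2 : RC2) (hT : TRX) (hC : CJ0) : BD0 :=
    fun K _ _ j q N _ δ δ' β θ η I d h hi hn hη e τ hp => by
  obtain ⟨ω, B⟩ := bs hI q j
  obtain ⟨y, n, D⟩ := ex_dt B d h hi e
  refine ⟨Or.inl (D.bd_one hC hn hη hp), fun z => ⟨fun hz => ?_, fun ⟨g, hg, σ, ex, k⟩ => ?_⟩⟩
  · obtain ⟨l, e, r, a, p⟩ := Zp_ne hz
    obtain ⟨A, hA, k⟩ := D.ideal hC r a e (prm_gc D.pos.ne' (ph_ne p).2.2.2)
    obtain ⟨g, ar⟩ := (h2 K j q δ D.pos).1 A hA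
    obtain ⟨σ, ex⟩ := ex_ex g
    obtain ⟨ψ, t⟩ := tp_of_j hJ (σ := σ) (B.lat D.pos) (isLat z)
      (by rw [ar_j h1 q D.pos ex, ar.2, k])
    exact ⟨g, ar.1, σ, ex, (st_cj (NeZero.pos N) hp t (ex.JJ ar.1)).1
      (D.at_z hn hη hz fun a => (tp_end t (ex.JJ ar.1) a).trans end_Oc)⟩
  · obtain ⟨⟨m, hm⟩, T⟩ := hT σ δ D.pos
    rw [D.bd_cj hT hC hn hη hp (ex.JJ hg) hm k]
    exact fun e => (jacobiSym.eq_zero_iff.1 e).2 (Int.isCoprime_iff_gcd_eq_one.1 (T m hm).1)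

theorem bdl (hI : IQ) (hJ : JH) (h1 : RC1) (h2 : RC2) (hT : TRX) (hC : CJ0) : BDL :=
    fun K _ _ j q N _ δ δ' β θ η I d h hi hn hη e a A B w Λ F x y L par lat tor Y hY s T hs hT1
      hT2 => by
  have hN := NeZero.pos N
  obtain ⟨ω, B0⟩ := bs hI q j
  obtain ⟨y, n, D⟩ := ex_dt B0 d h hi e
  obtain ⟨⟨τ, hp⟩, -, -, H, -⟩ := hg1 hI hJ h1 hC K j q N δ I hN D.pos d.ok.cop.symm hn
  have b0 := (bd0 hI hJ h1 h2 hT hC K j q N δ δ' β θ η I d h hi hn hη e τ hp).2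
  choose σ hσ using ex_ex
  choose z hz using fun g => (hC (σ g) N hN).1 τ
  have k1 : ∀ g ∈ T, ∀ g' ∈ T, Cj0 (σ g) N τ (z g') → g = g' := fun g hg g' hg' c => by
    have := (H τ _ _ (mul_mem (inv_mem (hT1 g' hg')) (hT1 g hg)) hp ((hσ g').inv.mul (hσ g))).2
      ((hC _ N hN).2.2.2.2.1 _ _ _ _ c ((hC _ N hN).2.2.2.1 _ _ (hz g')))
    exact (hT2 g' (hT1 g' hg')).unique ⟨hg, this⟩ ⟨hg', by simp⟩
  have k2 : Set.InjOn z T := fun g hg g' hg' c => k1 g hg g' hg' (c ▸ hz g)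
  obtain ⟨u, hu⟩ : ∃ u, io u = gs δ := ex_io (IsAlgebraic.of_pow two_pos (by
    rw [P004Z.Gq.gs_sq d.ok.odd d.ok.sq]
    exact_mod_cast isAlgebraic_intCast (R := ℚ) (A := ℂ) (eps δ * δ)))
  have k3 : ∀ g ∈ T, Bd N δ δ' β (z g) = s g := fun g hg => by
    obtain ⟨⟨m, hm⟩, -⟩ := hT (σ g) δ D.pos
    have g0 : gs δ ≠ 0 := fun e => by
      have := P004Z.Gq.gs_sq d.ok.odd d.ok.sq
      rw [e, zero_pow two_ne_zero, eq_comm, mul_eq_zero, Int.cast_eq_zero, Nat.cast_eq_zero] at this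
      have e2 := eps_sq δ
      have := D.pos
      rcases ‹_ ∨ _› with p | p
      · simp [p] at e2
      · omega
    have := gs_cy d.ok.odd d.ok.sq hm
    rw [← hu, hσ, hs g u (io_inj (by
      rw [map_pow, hu, P004Z.Gq.gs_sq d.ok.odd d.ok.sq, map_mul, map_intCast, map_natCast])),
      map_mul, map_intCast, hu] at this
    rw [D.bd_cj hT hC hn hη hp ((hσ g).JJ (hT1 g hg)) hm (hz g)]
    exact_mod_cast (mul_right_cancel₀ g0 this).symm
  have k4 : ∀ v, Bd N δ δ' β v ≠ 0 → ∃ γ ∈ Gamma0 N, γ • v ∈ T.image z := fun v hv => by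
    obtain ⟨g, hg, σ', ex, c⟩ := (b0 v).1 hv
    obtain ⟨g', ⟨m1, m2⟩, -⟩ := hT2 g hg
    have c1 := (hC _ N hN).2.2.2.2.1 _ _ _ _ ((H τ _ _ (mul_mem (inv_mem hg) (hT1 g' m1)) hp
      (ex.inv.mul (hσ g'))).1 m2) c
    rw [mul_inv_cancel_left] at c1
    obtain ⟨γ, hγ, p⟩ := ((hC _ N hN).2.2.1 _ _ _ c1).1 (hz g')
    exact ⟨γ, hγ, p ▸ Finset.mem_image_of_mem z m1⟩
  obtain ⟨k, k0, hk⟩ := tor (T.image z) ⟨Finset.forall_mem_image.2 fun g hg =>
    (b0 _).2 ⟨g, hT1 g hg, _, hσ g, hz g⟩, k4, Finset.forall_mem_image.2 fun g hg =>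
      Finset.forall_mem_image.2 fun g' hg' γ hγ c => congrArg z (k1 g hg g' hg'
        (((hC _ N hN).2.2.1 _ _ _ (hz g)).2 ⟨γ, hγ, c⟩))⟩
  obtain ⟨ex, -, e0, v⟩ := un_iff par.lat par.g2_eq par.g3_eq
  obtain ⟨γ, hγ, p⟩ := lat.2 _ hk
  have := (e0 _).2 ((par.per (k • ∑ g ∈ T, s g • F (z g))).2 ⟨γ, hγ, fun v => by
    rw [par.I_eq, par.I_eq, ← sub_div, p, evd, Finset.sum_image k2, nsmul_eq_mul, mul_div_assoc,
      Finset.sum_div]
    congr 1
    exact Finset.sum_congr rfl fun g hg => by rw [k3 g hg, par.I_eq, zsmul_eq_mul, mul_div_assoc]⟩)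
  refine isOfFinAddOrder_iff_nsmul_eq_zero.2 ⟨k, k0, P004M.TE.pa_inj io ?_⟩
  rw [map_zero, ← this, map_nsmul, map_nsmul, map_sum, map_sum]
  congr 1
  exact Finset.sum_congr rfl fun g _ => by
    rw [map_zsmul, map_zsmul, (v _ _).1 (hY g _ τ _ (hσ g) hp (hz g))]

end Vale.Agent.P004K
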